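import Vale.Agent.P321.UB.Transfer

/-! # Gaussian averages of functions bounded by hyperbolic cosines -/

namespace Vale.Agent.P321.R2.H613

open Complex Finset MeasureTheory Vale.Agent.P321.UB

/-- `2 cosh (lam T)`. -/
noncomputable def Ph (lam T : ℝ) : ℝ := Real.exp (lam * T) + Real.exp (-(lam * T))

theorem Ph_pos (lam T : ℝ) : 0 < Ph lam T := by unfold Ph; positivity

theorem Ph_neg (lam T : ℝ) : Ph lam (-T) = Ph lam T := by
  unfold Ph
  rw [mul_neg, neg_neg, add_comm]

theorem Ph_le {lam T S : ℝ} (hl : 0 ≤ lam) (hT : |T| ≤ S) : Ph lam T ≤ 2 * Real.exp (lam * S) := by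
  unfold Ph
  have h1 := abs_le.1 hT
  have h2 : Real.exp (lam * T) ≤ Real.exp (lam * S) :=
    Real.exp_le_exp.2 (mul_le_mul_of_nonneg_left h1.2 hl)
  have h3 : Real.exp (-(lam * T)) ≤ Real.exp (lam * S) := by
    apply Real.exp_le_exp.2
    rw [← mul_neg]
    exact mul_le_mul_of_nonneg_left (by linarith) hl
  linarith

theorem le_Ph {lam T S : ℝ} (hl : 0 ≤ lam) (hT : S ≤ |T|) : Real.exp (lam * S) ≤ Ph lam T := by
  unfold Ph
  rcases le_total 0 T with h | h
  · rw [abs_of_nonneg h] at hT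
    have h2 : Real.exp (lam * S) ≤ Real.exp (lam * T) :=
      Real.exp_le_exp.2 (mul_le_mul_of_nonneg_left hT hl)
    have := Real.exp_pos (-(lam * T))
    linarith
  · rw [abs_of_nonpos h] at hT
    have h2 : Real.exp (lam * S) ≤ Real.exp (-(lam * T)) := by
      apply Real.exp_le_exp.2
      rw [← mul_neg]
      exact mul_le_mul_of_nonneg_left hT hl
    have := Real.exp_pos (lam * T)
    linarith

theorem gauss_lin {w : ℝ} (hw : 0 < w) (c η : ℝ) :
    Real.exp (-w * η ^ 2) * Real.exp (c * η) =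
      Real.exp (c ^ 2 / (4 * w)) * Real.exp (-w * (η - c / (2 * w)) ^ 2) := by
  rw [← Real.exp_add, ← Real.exp_add]
  congr 1
  field_simp
  ring

theorem gauss_lin_integrable {w : ℝ} (hw : 0 < w) (c : ℝ) :
    Integrable (fun η : ℝ => Real.exp (-w * η ^ 2) * Real.exp (c * η)) := by
  simp_rw [gauss_lin hw c]
  exact (gaussIntegrable hw _).const_mul _

theorem gauss_lin_integral {w : ℝ} (hw : 0 < w) (c : ℝ) :
    ∫ η : ℝ, Real.exp (-w * η ^ 2) * Real.exp (c * η) =
      Real.exp (c ^ 2 / (4 * w)) * Real.sqrt (Real.pi / w) := by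
  simp_rw [gauss_lin hw c]
  rw [integral_const_mul, gaussInt hw]

theorem Ph_shift (lam η u : ℝ) : Ph lam (η + u) =
    Real.exp (lam * u) * Real.exp (lam * η) + Real.exp (-(lam * u)) * Real.exp (-lam * η) := by
  unfold Ph
  rw [← Real.exp_add, ← Real.exp_add]
  congr 2 <;> ring

theorem gauss_Ph_integrable {w : ℝ} (hw : 0 < w) (lam u : ℝ) :
    Integrable (fun η : ℝ => Real.exp (-w * η ^ 2) * Ph lam (η + u)) := by
  have h : (fun η : ℝ => Real.exp (-w * η ^ 2) * Ph lam (η + u)) = fun η =>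
      Real.exp (lam * u) * (Real.exp (-w * η ^ 2) * Real.exp (lam * η)) +
        Real.exp (-(lam * u)) * (Real.exp (-w * η ^ 2) * Real.exp (-lam * η)) := by
    funext η
    rw [Ph_shift]
    ring
  rw [h]
  exact ((gauss_lin_integrable hw _).const_mul _).add ((gauss_lin_integrable hw _).const_mul _)

theorem gauss_Ph_integral {w : ℝ} (hw : 0 < w) (lam u : ℝ) :
    ∫ η : ℝ, Real.exp (-w * η ^ 2) * Ph lam (η + u) =
      Real.exp (lam ^ 2 / (4 * w)) * Real.sqrt (Real.pi / w) * Ph lam u := by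
  have h : (fun η : ℝ => Real.exp (-w * η ^ 2) * Ph lam (η + u)) = fun η =>
      Real.exp (lam * u) * (Real.exp (-w * η ^ 2) * Real.exp (lam * η)) +
        Real.exp (-(lam * u)) * (Real.exp (-w * η ^ 2) * Real.exp (-lam * η)) := by
    funext η
    rw [Ph_shift]
    ring
  rw [h, integral_add ((gauss_lin_integrable hw _).const_mul _)
    ((gauss_lin_integrable hw _).const_mul _), integral_const_mul, integral_const_mul,
    gauss_lin_integral hw, gauss_lin_integral hw]
  unfold Ph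
  rw [neg_sq]
  ring

/-- Gaussian average of a function bounded by `X + P * Φ(η+u) + Q * Φ(η+v)`. -/
theorem avg_Ph {θ a β lam X P Q u v : ℝ} (hθ : 0 < θ) (ha : 0 < a)
    {F : ℝ → ℂ} (hF : ∀ η, ‖F η‖ ≤ X + P * Ph lam (η + u) + Q * Ph lam (η + v)) :
    ‖∫ η : ℝ, gK θ a β η * F η‖ ≤ Real.exp (β ^ 2 * θ ^ 2 / (2 * a)) *
      (X + P * (Real.exp (a * lam ^ 2 / (2 * θ ^ 2)) * Ph lam u) +
        Q * (Real.exp (a * lam ^ 2 / (2 * θ ^ 2)) * Ph lam v)) := by
  set w := θ ^ 2 / (2 * a) with hw'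
  have hw : 0 < w := by rw [hw']; positivity
  set N := θ / Real.sqrt (2 * Real.pi * a) with hN'
  have hN : 0 ≤ N := div_nonneg hθ.le (Real.sqrt_nonneg _)
  set E := Real.exp (β ^ 2 * θ ^ 2 / (2 * a)) with hE'
  have hE : 0 < E := Real.exp_pos _
  have hcoef : N * Real.sqrt (Real.pi / w) = 1 := gK_coef hθ ha
  have hlam : lam ^ 2 / (4 * w) = a * lam ^ 2 / (2 * θ ^ 2) := by
    rw [hw']; field_simp; ring
  set g : ℝ → ℝ := fun η => (N * E * X) * Real.exp (-w * (η - 0) ^ 2) +
    (N * E * P) * (Real.exp (-w * η ^ 2) * Ph lam (η + u)) +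
    (N * E * Q) * (Real.exp (-w * η ^ 2) * Ph lam (η + v)) with hg
  have i1 : Integrable (fun η : ℝ => (N * E * X) * Real.exp (-w * (η - 0) ^ 2)) :=
    (gaussIntegrable hw 0).const_mul _
  have i2 : Integrable (fun η : ℝ => (N * E * P) * (Real.exp (-w * η ^ 2) * Ph lam (η + u))) :=
    (gauss_Ph_integrable hw lam u).const_mul _
  have i3 : Integrable (fun η : ℝ => (N * E * Q) * (Real.exp (-w * η ^ 2) * Ph lam (η + v))) :=
    (gauss_Ph_integrable hw lam v).const_mul _
  have hgi : Integrable g := (i1.add i2).add i3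
  have hle : ∀ η : ℝ, ‖gK θ a β η * F η‖ ≤ g η := by
    intro η
    rw [norm_mul, gK_norm hθ]
    have h1 : 0 ≤ N * E * Real.exp (-w * η ^ 2) := by positivity
    refine (mul_le_mul_of_nonneg_left (hF η) h1).trans (le_of_eq ?_)
    simp only [hg, sub_zero]
    ring
  refine (norm_integral_le_of_norm_le hgi (Filter.Eventually.of_forall hle)).trans (le_of_eq ?_)
  have e1 : ∫ η, g η = (N * E * X) * Real.sqrt (Real.pi / w) +
      (N * E * P) * (Real.exp (lam ^ 2 / (4 * w)) * Real.sqrt (Real.pi / w) * Ph lam u) +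
      (N * E * Q) * (Real.exp (lam ^ 2 / (4 * w)) * Real.sqrt (Real.pi / w) * Ph lam v) := by
    have e2 : ∫ η, g η = (∫ η : ℝ, (N * E * X) * Real.exp (-w * (η - 0) ^ 2)) +
      (∫ η : ℝ, (N * E * P) * (Real.exp (-w * η ^ 2) * Ph lam (η + u))) +
      ∫ η : ℝ, (N * E * Q) * (Real.exp (-w * η ^ 2) * Ph lam (η + v)) := by
      rw [← integral_add i1 i2]
      exact integral_add (i1.add i2) i3
    rw [e2, integral_const_mul, integral_const_mul, integral_const_mul, gaussInt hw,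
      gauss_Ph_integral hw, gauss_Ph_integral hw]
  rw [e1, hlam]
  linear_combination (E * X + E * P * Real.exp (a * lam ^ 2 / (2 * θ ^ 2)) * Ph lam u +
    E * Q * Real.exp (a * lam ^ 2 / (2 * θ ^ 2)) * Ph lam v) * hcoef

end Vale.Agent.P321.R2.H613
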