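import Vale.Agent.P321.UB.Chain

/-! # Chain lemma with a density `1/6` of bad cells -/

namespace Vale.Agent.P321.R2.H613

open Complex Finset Vale.Agent.P321.UB

theorem exists_notMem_of_card {N : ℕ} {X : Finset ℕ} (h : X.card < N) : ∃ y < N, y ∉ X := by
  by_contra hcon
  push Not at hcon
  have h1 : range N ⊆ X := fun y hy => hcon y (mem_range.1 hy)
  have h2 := card_le_card h1
  rw [card_range] at h2
  omega

/-- Chain lemma: approximately additive characters on more than `5/6` of `[0,L)` with adjacent
values close are trivial. -/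
theorem chain6 {L : ℕ} {bad : Finset ℕ} (hbad : 6 * bad.card + 2 ≤ L) {u : ℕ → ℂ} {e : ℝ}
    (he : 0 ≤ e)
    (hu : ∀ a < L, a ∉ bad → ‖u a‖ = 1)
    (hadj : ∀ a, a + 1 < L → a ∉ bad → a + 1 ∉ bad → ‖u (a + 1) - u a‖ ≤ e)
    (hmul : ∀ a b, a + b < L → a ∉ bad → b ∉ bad → a + b ∉ bad → ‖u a * u b - u (a + b)‖ ≤ e) :
    ∀ a < L, a ∉ bad → ‖u a - 1‖ ≤ 5 * L * e := by
  classical
  set B := bad.card with hB
  -- the main induction
  have key : ∀ k, k ≤ B + 1 → ∀ z, z + k < L → z ∉ bad → z + k ∉ bad →
      ‖u (z + k) - u z‖ ≤ 3 * k * e := by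
    intro k
    induction k with
    | zero =>
      intro _ z _ _ _
      simp
    | succ k ih =>
      intro hk z hz hgz hgzk
      set X : Finset ℕ := bad ∪ bad.image (fun b => b - k) ∪ bad.image (fun b => b - (k + 1)) ∪
        bad.image (fun b => z - b) ∪ bad.image (fun b => z + b) with hX
      have hXc : X.card ≤ 5 * B := by
        have c1 := card_union_le (bad ∪ bad.image (fun b => b - k) ∪
          bad.image (fun b => b - (k + 1)) ∪ bad.image (fun b => z - b)) (bad.image (fun b => z + b))
        have c2 := card_union_le (bad ∪ bad.image (fun b => b - k) ∪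
          bad.image (fun b => b - (k + 1))) (bad.image (fun b => z - b))
        have c3 := card_union_le (bad ∪ bad.image (fun b => b - k)) (bad.image (fun b => b - (k + 1)))
        have c4 := card_union_le bad (bad.image (fun b => b - k))
        have i1 : (bad.image (fun b => b - k)).card ≤ B := card_image_le
        have i2 : (bad.image (fun b => b - (k + 1))).card ≤ B := card_image_le
        have i3 : (bad.image (fun b => z - b)).card ≤ B := card_image_le
        have i4 : (bad.image (fun b => z + b)).card ≤ B := card_image_le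
        rw [hX]
        omega
      obtain ⟨y, hy, hyX⟩ := exists_notMem_of_card (N := L - (k + 1)) (X := X) (by omega)
      simp only [hX, mem_union, mem_image, not_or, not_exists, not_and] at hyX
      obtain ⟨⟨⟨⟨hy1, hy2⟩, hy3⟩, hy4⟩, hy5⟩ := hyX
      have g1 : y ∉ bad := hy1
      have g2 : y + k ∉ bad := fun h => hy2 _ h (by omega)
      have g3 : y + (k + 1) ∉ bad := fun h => hy3 _ h (by omega)
      have hd1 : ‖u (y + (k + 1)) - u y‖ ≤ (3 * k + 1) * e := by
        have e3 : ‖u (y + (k + 1)) - u (y + k)‖ ≤ e := hadj (y + k) (by omega) g2 g3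
        have e4 : ‖u (y + k) - u y‖ ≤ 3 * k * e := ih (by omega) y (by omega) g1 g2
        have := norm_add_le (u (y + (k + 1)) - u (y + k)) (u (y + k) - u y)
        rw [sub_add_sub_cancel] at this
        linarith
      rcases le_total y z with hyz | hyz
      · -- `d = z - y`
        obtain ⟨d, rfl⟩ := Nat.exists_eq_add_of_le hyz
        have gd : d ∉ bad := fun h => hy4 d h (by omega)
        have e1 : ‖u (y + (k + 1)) * u d - u (y + d + (k + 1))‖ ≤ e := by
          have h' : y + (k + 1) + d = y + d + (k + 1) := by omega
          have := hmul (y + (k + 1)) d (by omega) g3 gd (by rw [h']; exact hgzk)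
          rwa [h'] at this
        have e2 : ‖u y * u d - u (y + d)‖ ≤ e := hmul y d (by omega) g1 gd hgz
        have n1 : ‖u d‖ = 1 := hu d (by omega) gd
        have hid : u (y + d + (k + 1)) - u (y + d) = (u (y + (k + 1)) - u y) * u d -
            (u (y + (k + 1)) * u d - u (y + d + (k + 1))) + (u y * u d - u (y + d)) := by ring
        rw [hid]
        have t1 := norm_add_le ((u (y + (k + 1)) - u y) * u d -
            (u (y + (k + 1)) * u d - u (y + d + (k + 1)))) (u y * u d - u (y + d))
        have t2 := norm_sub_le ((u (y + (k + 1)) - u y) * u d)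
            (u (y + (k + 1)) * u d - u (y + d + (k + 1)))
        rw [norm_mul, n1, mul_one] at t2
        push_cast
        linarith
      · obtain ⟨d, rfl⟩ := Nat.exists_eq_add_of_le hyz
        have gd : d ∉ bad := fun h => hy5 d h (by omega)
        have e1 : ‖u (z + (k + 1)) * u d - u (z + d + (k + 1))‖ ≤ e := by
          have h' : z + (k + 1) + d = z + d + (k + 1) := by omega
          have := hmul (z + (k + 1)) d (by omega) hgzk gd (by rw [h']; exact g3)
          rwa [h'] at this
        have e2 : ‖u z * u d - u (z + d)‖ ≤ e := hmul z d (by omega) hgz gd g1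
        have n1 : ‖u d‖ = 1 := hu d (by omega) gd
        have hid : (u (z + (k + 1)) - u z) * u d = (u (z + d + (k + 1)) - u (z + d)) +
            (u (z + (k + 1)) * u d - u (z + d + (k + 1))) - (u z * u d - u (z + d)) := by ring
        have hn : ‖u (z + (k + 1)) - u z‖ = ‖(u (z + (k + 1)) - u z) * u d‖ := by
          rw [norm_mul, n1, mul_one]
        rw [hn, hid]
        have t1 := norm_sub_le ((u (z + d + (k + 1)) - u (z + d)) +
            (u (z + (k + 1)) * u d - u (z + d + (k + 1)))) (u z * u d - u (z + d))
        have t2 := norm_add_le (u (z + d + (k + 1)) - u (z + d))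
            (u (z + (k + 1)) * u d - u (z + d + (k + 1)))
        push_cast
        linarith
  -- long differences
  have far : ∀ N : ℕ, ∀ a b : ℕ, b = a + N → b < L → a ∉ bad → b ∉ bad → ‖u b - u a‖ ≤ 3 * N * e := by
    intro N
    induction N using Nat.strong_induction_on with
    | _ N ih =>
      intro a b hab hb hga hgb
      rcases Nat.lt_or_ge (B + 1) N with hN | hN
      · -- find a good cell in `[b - (B+1), b)`
        set X : Finset ℕ := bad.image (fun c => c - (b - (B + 1))) with hX
        have hXc : X.card ≤ B := card_image_le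
        obtain ⟨y, hy, hyX⟩ := exists_notMem_of_card (N := B + 1) (X := X) (by omega)
        simp only [hX, mem_image, not_exists, not_and] at hyX
        have gc : b - (B + 1) + y ∉ bad := fun h => hyX _ h (by omega)
        set c := b - (B + 1) + y with hc
        have h1 : ‖u b - u c‖ ≤ 3 * (b - c : ℕ) * e := by
          have := key (b - c) (by omega) c (by omega) gc (by rwa [show c + (b - c) = b by omega])
          rwa [show c + (b - c) = b by omega] at this
        have h2 : ‖u c - u a‖ ≤ 3 * (c - a : ℕ) * e :=
          ih (c - a) (by omega) a c (by omega) (by omega) hga gc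
        have h3 := norm_add_le (u b - u c) (u c - u a)
        rw [sub_add_sub_cancel] at h3
        have h4 : ((b - c : ℕ) : ℝ) + ((c - a : ℕ) : ℝ) = (N : ℝ) := by
          have : (b - c) + (c - a) = N := by omega
          exact_mod_cast this
        rw [← h4]
        linarith
      · subst hab
        exact key N hN a hb hga hgb
  -- a good starting cell
  obtain ⟨a0, ha0, hg0⟩ := exists_notMem_of_card (N := B + 1) (X := bad) (by omega)
  obtain ⟨b, hb, hbX⟩ := exists_notMem_of_card (N := L - a0)
    (X := bad ∪ bad.image (fun c => c - a0)) (by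
      have c1 := card_union_le bad (bad.image (fun c => c - a0))
      have i1 : (bad.image (fun c => c - a0)).card ≤ B := card_image_le
      omega)
  simp only [mem_union, mem_image, not_or, not_exists, not_and] at hbX
  have gb : b ∉ bad := hbX.1
  have gb' : a0 + b ∉ bad := fun h => hbX.2 _ h (by omega)
  have h0 : ‖u a0 - 1‖ ≤ (3 * a0 + 1) * e := by
    have e1 := hmul a0 b (by omega) hg0 gb gb'
    have e2 := key a0 (by omega) b (by omega) gb (by rwa [add_comm])
    have n1 : ‖u b‖ = 1 := hu b (by omega) gb
    have hid : (u a0 - 1) * u b = (u a0 * u b - u (a0 + b)) + (u (b + a0) - u b) := by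
      rw [add_comm b a0]; ring
    have hn : ‖u a0 - 1‖ = ‖(u a0 - 1) * u b‖ := by rw [norm_mul, n1, mul_one]
    rw [hn, hid]
    refine (norm_add_le _ _).trans ?_
    linarith
  intro a ha hga
  have hLa : (a : ℝ) + 1 ≤ L := by exact_mod_cast ha
  have hLa0 : (a0 : ℝ) + 1 ≤ L := by
    have : a0 + 1 ≤ L := by omega
    exact_mod_cast this
  have h6 : 6 * (a0 : ℝ) + 2 ≤ L := by
    have : 6 * a0 + 2 ≤ L := by omega
    exact_mod_cast this
  have h1 : ‖u a - u a0‖ ≤ 3 * L * e := by
    rcases le_total a0 a with h | h
    · have := far (a - a0) a0 a (by omega) ha hg0 hga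
      refine this.trans ?_
      have : ((a - a0 : ℕ) : ℝ) ≤ L := by
        have : a - a0 ≤ L := by omega
        exact_mod_cast this
      gcongr
    · have := far (a0 - a) a a0 (by omega) (by omega) hga hg0
      rw [norm_sub_rev]
      refine this.trans ?_
      have : ((a0 - a : ℕ) : ℝ) ≤ L := by
        have : a0 - a ≤ L := by omega
        exact_mod_cast this
      gcongr
  have h2 := norm_add_le (u a - u a0) (u a0 - 1)
  rw [sub_add_sub_cancel] at h2
  have h3 : (3 * (a0 : ℝ) + 1) * e ≤ L * e := by
    apply mul_le_mul_of_nonneg_right _ he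
    linarith
  have h4 : 0 ≤ (L : ℝ) * e := by positivity
  linarith

end Vale.Agent.P321.R2.H613
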