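import Mathlib

/-! # Lower bound for the symmetrised Poisson kernel -/

namespace Vale.Agent.P321.R2.H613

theorem kern_poly {ρ : ℝ} (h1 : 1 ≤ ρ) (h2 : ρ ≤ 3.1) :
    0 ≤ (10 / 3) * ρ * (1 + 34 * ρ ^ 2 / 9) -
      0.95 * ((1 + 34 * ρ ^ 2 / 9) ^ 2 - (100 / 9) * ρ ^ 4) := by
  have hU : 0 ≤ (ρ - 1) * (3.1 - ρ) := mul_nonneg (by linarith) (by linarith)
  have hV : 0 ≤ (ρ - 1) * (3.1 - ρ) * (ρ ^ 2 - 1) :=
    mul_nonneg hU (by nlinarith)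
  have hW : 0 ≤ (ρ - 1) * (3.1 - ρ) * (ρ - 1) := mul_nonneg hU (by linarith)
  have hU2 : (ρ - 1) * (3.1 - ρ) ≤ 1.11 := by nlinarith [sq_nonneg (ρ - 2.05)]
  nlinarith

/-- normalised kernel bound, in terms of `X = ξ²`, `ρ = |y|`. -/
theorem kern_one {X Y w : ℝ} (hX : 0 ≤ X) (hXw : X ≤ w ^ 2) {ρ : ℝ} (hρ : 0 ≤ ρ) (hY : Y = ρ ^ 2)
    (hw : 0 ≤ w) (hw1 : ρ ≤ 1 → w = 1) (hw2 : 1 < ρ → w = 5 / 3 * ρ) (hρ3 : ρ ≤ 3.1) :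
    0.95 * ((1 + X + Y) ^ 2 - 4 * X * Y) ≤ w * (2 * (1 + X + Y)) := by
  rcases le_or_gt ρ 1 with h | h
  · have hw' := hw1 h
    subst hw'
    have hY0 : 0 ≤ Y := by rw [hY]; positivity
    have hY1 : Y ≤ 1 := by rw [hY]; nlinarith
    have hX1 : X ≤ 1 := by linarith
    have : (X - Y) ^ 2 ≤ 1 := by nlinarith
    nlinarith
  · have hw' := hw2 h
    subst hw'
    subst hY
    have hX1 : X ≤ 25 * ρ ^ 2 / 9 := by nlinarith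
    have g0 : 0 ≤ (10 / 3) * ρ * (1 + ρ ^ 2) - 0.95 * (1 + ρ ^ 2) ^ 2 := by
      have h1 : 0.95 * (1 + ρ ^ 2) ≤ (10 / 3) * ρ := by nlinarith
      have h2 : 0 ≤ (1 + ρ ^ 2) * ((10 / 3) * ρ - 0.95 * (1 + ρ ^ 2)) :=
        mul_nonneg (by positivity) (by linarith)
      nlinarith
    have g1 := kern_poly h.le hρ3
    have hp : 0 < 25 * ρ ^ 2 / 9 := by positivity
    -- interpolation
    have key : 0 ≤ (25 * ρ ^ 2 / 9) * ((5 / 3 * ρ) * (2 * (1 + X + ρ ^ 2)) -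
        0.95 * ((1 + X + ρ ^ 2) ^ 2 - 4 * X * ρ ^ 2)) := by
      have e : (25 * ρ ^ 2 / 9) * ((5 / 3 * ρ) * (2 * (1 + X + ρ ^ 2)) -
        0.95 * ((1 + X + ρ ^ 2) ^ 2 - 4 * X * ρ ^ 2)) =
        (25 * ρ ^ 2 / 9 - X) * ((10 / 3) * ρ * (1 + ρ ^ 2) - 0.95 * (1 + ρ ^ 2) ^ 2) +
        X * ((10 / 3) * ρ * (1 + 34 * ρ ^ 2 / 9) -
          0.95 * ((1 + 34 * ρ ^ 2 / 9) ^ 2 - (100 / 9) * ρ ^ 4)) +
        0.95 * (X * (25 * ρ ^ 2 / 9) * (25 * ρ ^ 2 / 9 - X)) := by ring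
      rw [e]
      have a1 := mul_nonneg (sub_nonneg.2 hX1) g0
      have a2 := mul_nonneg hX g1
      have a3 := mul_nonneg (mul_nonneg hX hp.le) (sub_nonneg.2 hX1)
      linarith
    have := nonneg_of_mul_nonneg_right key hp
    linarith

/-- The symmetrised Poisson kernel of the half plane is at least `0.95 / w` on `[0, w]`. -/
theorem kern6 {a w y ξ : ℝ} (ha : 0 < a) (hξ0 : 0 ≤ ξ) (hξw : ξ ≤ w)
    (hw1 : |y| ≤ a → w = a) (hw2 : a < |y| → w = 5 / 3 * |y|) (hy : |y| ≤ 3.1 * a) :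
    0.95 ≤ a * w * (1 / (a ^ 2 + (ξ + y) ^ 2) + 1 / (a ^ 2 + (ξ - y) ^ 2)) := by
  have p1 : 0 < a ^ 2 + (ξ + y) ^ 2 := by positivity
  have p2 : 0 < a ^ 2 + (ξ - y) ^ 2 := by positivity
  have hw : 0 ≤ w := hξ0.trans hξw
  have h := kern_one (X := (ξ / a) ^ 2) (Y := (|y| / a) ^ 2) (w := w / a) (ρ := |y| / a)
    (by positivity) (by gcongr) (by positivity) rfl (by positivity)
    (fun h => by
      rw [div_le_one ha] at h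
      rw [hw1 h, div_self ha.ne'])
    (fun h => by
      rw [one_lt_div ha] at h
      rw [hw2 h]; ring)
    (by rw [div_le_iff₀ ha]; exact hy)
  have hy2 : (|y| / a) ^ 2 = y ^ 2 / a ^ 2 := by rw [div_pow, sq_abs]
  rw [hy2, div_pow] at h
  have e1 : (1 + ξ ^ 2 / a ^ 2 + y ^ 2 / a ^ 2) ^ 2 - 4 * (ξ ^ 2 / a ^ 2) * (y ^ 2 / a ^ 2) =
      ((a ^ 2 + (ξ + y) ^ 2) * (a ^ 2 + (ξ - y) ^ 2)) / a ^ 4 := by
    field_simp
    ring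
  have e2 : w / a * (2 * (1 + ξ ^ 2 / a ^ 2 + y ^ 2 / a ^ 2)) =
      (a * w * (2 * (a ^ 2 + ξ ^ 2 + y ^ 2))) / a ^ 4 := by
    field_simp
  rw [e1, e2, ← mul_div_assoc, div_le_div_iff_of_pos_right (by positivity)] at h
  have e3 : a * w * (1 / (a ^ 2 + (ξ + y) ^ 2) + 1 / (a ^ 2 + (ξ - y) ^ 2)) =
      (a * w * (2 * (a ^ 2 + ξ ^ 2 + y ^ 2))) /
        ((a ^ 2 + (ξ + y) ^ 2) * (a ^ 2 + (ξ - y) ^ 2)) := by
    field_simp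
    ring
  rw [e3, le_div_iff₀ (by positivity)]
  exact h

end Vale.Agent.P321.R2.H613
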