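import Vale.Agent.P321.UB.PoissonJensen
import Vale.Agent.P321.R2.H613.Kern6

/-! # Counting bad cells with a two-sided bad set -/

namespace Vale.Agent.P321.R2.H613

open Complex MeasureTheory Metric Real Set Vale.Agent.P321.UB

/-- Lower bound for the sum of the Poisson kernels at `±ξ`. -/
theorem PK_pair {w0 w ξ : ℝ} {s : ℂ} (h0 : 0 < w0) (h1 : 1000 * w0 ≤ s.re)
    (h2 : s.re ≤ 1 / 1000) (hy : |s.im| ≤ 3.05 * s.re)
    (hw1 : |s.im| ≤ s.re - w0 → w = s.re - w0) (hw2 : s.re - w0 < |s.im| → w = 5 / 3 * |s.im|)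
    (hw : 0 < w) (hξ0 : 0 ≤ ξ) (hξw : ξ ≤ w) :
    1.89 / w ≤ PK (Complex.exp (-s)) (circleMap 0 (Real.exp (-w0)) ξ) +
      PK (Complex.exp (-s)) (circleMap 0 (Real.exp (-w0)) (-ξ)) := by
  set a := s.re - w0 with ha
  have ha0 : 0 < a := by linarith
  have hk := kern6 (a := a) (w := w) (y := s.im) (ξ := ξ) ha0 hξ0 hξw hw1 hw2 (by linarith)
  have hz : ∀ x : ℝ, circleMap 0 (Real.exp (-w0)) x = Complex.exp (-w0 + x * I) := by
    intro x
    rw [circleMap_zero, Complex.exp_add]; push_cast; ring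
  have hnz : ∀ x : ℝ, ‖circleMap 0 (Real.exp (-w0)) x‖ = Real.exp (-w0) := by
    intro x
    rw [hz, Complex.norm_exp]; simp
  have hnw : ‖Complex.exp (-s)‖ = Real.exp (-s.re) := by rw [Complex.norm_exp]; simp
  have hdist : ∀ x : ℝ, ‖circleMap 0 (Real.exp (-w0)) x - Complex.exp (-s)‖ ^ 2 ≤
      a ^ 2 + (x + s.im) ^ 2 := by
    intro x
    have e1 : ‖circleMap 0 (Real.exp (-w0)) x - Complex.exp (-s)‖ ≤ ‖(-w0 + x * I : ℂ) - -s‖ := by
      rw [hz]
      exact norm_exp_sub_exp_le (by simp; linarith) (by simp; linarith)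
    have e2 : ‖(-w0 + x * I : ℂ) - -s‖ ^ 2 = a ^ 2 + (x + s.im) ^ 2 := by
      rw [← Complex.normSq_eq_norm_sq, Complex.normSq_apply]
      have f1 : ((-w0 + x * I : ℂ) - -s).re = a := by simp [ha]; ring
      have f2 : ((-w0 + x * I : ℂ) - -s).im = x + s.im := by simp
      rw [f1, f2]; ring
    calc _ ≤ ‖(-w0 + x * I : ℂ) - -s‖ ^ 2 := pow_le_pow_left₀ (norm_nonneg _) e1 2
      _ = _ := e2
  have hpos : ∀ x : ℝ, 0 < ‖circleMap 0 (Real.exp (-w0)) x - Complex.exp (-s)‖ := by
    intro x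
    rw [norm_pos_iff, sub_ne_zero]
    intro h
    have := hnz x
    rw [h, hnw] at this
    have := Real.exp_injective this
    linarith
  have hnum : 2 * a * 0.9979 ≤ Real.exp (-w0) ^ 2 - Real.exp (-s.re) ^ 2 := by
    have b1 : Real.exp (-w0) ^ 2 = Real.exp (-(2 * w0)) := by
      rw [← Real.exp_nat_mul]; congr 1; push_cast; ring
    have b2 : Real.exp (-s.re) ^ 2 = Real.exp (-(2 * w0)) * Real.exp (-(2 * a)) := by
      rw [← Real.exp_nat_mul, ← Real.exp_add]
      congr 1; rw [ha]; push_cast; ring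
    have b3 : 1 - 2 * w0 ≤ Real.exp (-(2 * w0)) := by
      have := Real.add_one_le_exp (-(2 * w0)); linarith
    have b4 : Real.exp (-(2 * a)) ≤ 1 - 2 * a * 0.998 := by
      have c1 : Real.exp (-(2 * a)) ≤ 1 / (1 + 2 * a) := by
        rw [Real.exp_neg, ← one_div]
        apply one_div_le_one_div_of_le (by linarith)
        linarith [Real.add_one_le_exp (2 * a)]
      have c2 : 1 / (1 + 2 * a) ≤ 1 - 2 * a * 0.998 := by
        rw [div_le_iff₀ (by linarith)]
        nlinarith
      linarith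
    have b5 : (1 - 2 * w0) * (2 * a * 0.998) ≤ Real.exp (-(2 * w0)) * (1 - Real.exp (-(2 * a))) := by
      apply mul_le_mul b3 (by linarith) (by positivity) (Real.exp_pos _).le
    rw [b1, b2]
    have b6 : 2 * a * 0.9979 ≤ (1 - 2 * w0) * (2 * a * 0.998) := by
      nlinarith
    linarith
  have hPK : ∀ x : ℝ, 2 * a * 0.9979 * (1 / (a ^ 2 + (x + s.im) ^ 2)) ≤
      PK (Complex.exp (-s)) (circleMap 0 (Real.exp (-w0)) x) := by
    intro x
    unfold PK
    rw [hnz, hnw, mul_one_div]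
    have h3 := hdist x
    have h4 := hpos x
    have h5 : 0 < a ^ 2 + (x + s.im) ^ 2 := by positivity
    rw [div_le_div_iff₀ h5 (by positivity)]
    calc 2 * a * 0.9979 * ‖circleMap 0 (Real.exp (-w0)) x - Complex.exp (-s)‖ ^ 2
        ≤ 2 * a * 0.9979 * (a ^ 2 + (x + s.im) ^ 2) := by gcongr
      _ ≤ (Real.exp (-w0) ^ 2 - Real.exp (-s.re) ^ 2) * (a ^ 2 + (x + s.im) ^ 2) := by gcongr
  have k1 := hPK ξ
  have k2 := hPK (-ξ)
  have e3 : (-ξ + s.im) ^ 2 = (ξ - s.im) ^ 2 := by ring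
  rw [e3] at k2
  rw [div_le_iff₀ hw]
  have k3 : 2 * a * 0.9979 * (1 / (a ^ 2 + (ξ + s.im) ^ 2)) * w +
      2 * a * 0.9979 * (1 / (a ^ 2 + (ξ - s.im) ^ 2)) * w ≤
      (PK (Complex.exp (-s)) (circleMap 0 (Real.exp (-w0)) ξ) +
      PK (Complex.exp (-s)) (circleMap 0 (Real.exp (-w0)) (-ξ))) * w := by
    rw [add_mul]
    gcongr
  refine le_trans ?_ k3
  have k4 : 2 * a * 0.9979 * (1 / (a ^ 2 + (ξ + s.im) ^ 2)) * w +
      2 * a * 0.9979 * (1 / (a ^ 2 + (ξ - s.im) ^ 2)) * w =
      1.9958 * (a * w * (1 / (a ^ 2 + (ξ + s.im) ^ 2) + 1 / (a ^ 2 + (ξ - s.im) ^ 2))) := by ring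
  rw [k4]
  linarith

theorem few_bad6_core {w0 A ε c h w : ℝ} {s : ℂ} {L m : ℕ} {a : ℕ → ℂ}
    (hreal : ∀ k, (starRingEnd ℂ) (a k) = a k) (h0 : 0 < w0) (h1 : 1000 * w0 ≤ s.re)
    (h2 : s.re ≤ 1 / 1000) (hy : |s.im| ≤ 3.05 * s.re)
    (hw1 : |s.im| ≤ s.re - w0 → w = s.re - w0) (hw2 : s.re - w0 < |s.im| → w = 5 / 3 * |s.im|)
    (hh : 0 < h) (hh2 : 1000 * h ≤ w) (hA1 : 1 ≤ A)
    (hA : ∀ x : ℝ, ‖expSum m a ((w0 : ℂ) - x * I)‖ ≤ A) (hε : 0 < ε) (hs : ε ≤ ‖expSum m a s‖)
    (hc0 : 0 < c) (hc : 21 * (Real.log A - Real.log ε) ≤ c)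
    (hL : (L : ℝ) * h ≤ w) (hL' : 0.999 * w ≤ (L : ℝ) * h)
    (B : Finset ℕ) (hB : B ⊆ Finset.range L)
    (hbad : ∀ j ∈ B, ∀ x : ℝ, j * h ≤ x → x < (j + 1) * h →
      ‖expSum m a ((w0 : ℂ) - x * I)‖ < Real.exp (-c)) :
    6 * B.card + 2 ≤ L := by
  classical
  set r := Real.exp (-w0) with hr
  set wp := Complex.exp (-s) with hwdef
  have hw0 : 0 < w := by linarith
  have hwπ : w ≤ 1 / 100 := by
    rcases le_or_gt |s.im| (s.re - w0) with h3 | h3
    · rw [hw1 h3]; linarith
    · rw [hw2 h3]; linarith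
  have hw : ‖wp‖ < r := by
    rw [hwdef, hr, Complex.norm_exp, Complex.neg_re]
    apply Real.exp_lt_exp.2
    linarith
  set p : Polynomial ℂ := ∑ k ∈ Finset.range m, Polynomial.C (a k) * Polynomial.X ^ k with hpdef
  have hpe : ∀ t : ℂ, p.eval (Complex.exp (-t)) = expSum m a t := by
    intro t
    rw [hpdef, Polynomial.eval_finsetSum]
    unfold expSum
    apply Finset.sum_congr rfl
    intro k _
    simp only [Polynomial.eval_mul, Polynomial.eval_C, Polynomial.eval_pow, Polynomial.eval_X]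
    rw [← Complex.exp_nat_mul]
    congr 2; ring
  have hcm : ∀ ξ : ℝ, circleMap 0 r ξ = Complex.exp (-(w0 - ξ * I)) := by
    intro ξ
    rw [circleMap_zero, hr, neg_sub, sub_eq_add_neg, add_comm, Complex.exp_add]
    push_cast; ring
  have hpc : ∀ ξ : ℝ, p.eval (circleMap 0 r ξ) = expSum m a ((w0 : ℂ) - ξ * I) := by
    intro ξ; rw [hcm, hpe]
  have hconj : ∀ ξ : ℝ, ‖p.eval (circleMap 0 r (-ξ))‖ = ‖p.eval (circleMap 0 r ξ)‖ := by
    intro ξ
    rw [hpc, hpc]
    have e : expSum m a ((w0 : ℂ) - (-ξ : ℝ) * I) =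
        (starRingEnd ℂ) (expSum m a ((w0 : ℂ) - ξ * I)) := by
      unfold expSum
      rw [map_sum]
      refine Finset.sum_congr rfl fun k _ => ?_
      rw [map_mul, hreal, ← Complex.exp_conj]
      congr 2
      simp
      left
      ring
    rw [e, RCLike.norm_conj]
  have hper : ∀ ξ : ℝ, circleMap 0 r (2 * π - ξ) = circleMap 0 r (-ξ) := by
    intro ξ
    have := periodic_circleMap 0 r (-ξ)
    rw [← this]
    congr 1
    ring
  have hpw : ε ≤ ‖p.eval wp‖ := by rw [hwdef, hpe]; exact hs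
  have hpw0 : p.eval wp ≠ 0 := by
    intro h; rw [h, norm_zero] at hpw; linarith
  -- the bad set
  set E : Set ℝ := ⋃ j ∈ B, Ioo ((j : ℝ) * h) ((j + 1) * h) with hE
  have hEm : MeasurableSet E := Finset.measurableSet_biUnion _ (fun a _ => measurableSet_Ioo)
  have hEsub : E ⊆ Ioo 0 w := by
    intro θ hθ
    simp only [hE, mem_iUnion, exists_prop] at hθ
    obtain ⟨j, hj, hθ1, hθ2⟩ := hθ
    have hj2 := Finset.mem_range.1 (hB hj)
    have hj3 : (j + 1 : ℝ) ≤ (L : ℝ) := by exact_mod_cast hj2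
    constructor
    · have : 0 ≤ (j : ℝ) * h := by positivity
      linarith
    · have : (j + 1 : ℝ) * h ≤ (L : ℝ) * h := by gcongr
      linarith
  have hEvol : volume.real E = B.card * h := by
    rw [hE, measureReal_def, measure_biUnion_finset]
    · simp only [Real.volume_Ioo]
      have : ∀ j ∈ B, ENNReal.ofReal ((j + 1 : ℝ) * h - j * h) = ENNReal.ofReal h := by
        intro j _; congr 1; ring
      rw [Finset.sum_congr rfl this, Finset.sum_const, nsmul_eq_mul, ENNReal.toReal_mul,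
        ENNReal.toReal_ofReal hh.le]
      simp
    · intro a _ b _ hab
      simp only [Function.onFun]
      rw [Set.disjoint_left]
      rintro θ ⟨ha1, ha2⟩ ⟨hb1, hb2⟩
      apply hab
      have c1 : (a : ℝ) < b + 1 := by
        have := ha1.trans hb2
        exact lt_of_mul_lt_mul_right this hh.le
      have c2 : (b : ℝ) < a + 1 := by
        have := hb1.trans ha2
        exact lt_of_mul_lt_mul_right this hh.le
      have c1' : a < b + 1 := by exact_mod_cast c1
      have c2' : b < a + 1 := by exact_mod_cast c2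
      omega
    · intro a _; exact measurableSet_Ioo
  set E2 : Set ℝ := (fun θ => 2 * π - θ) ⁻¹' E with hE2
  have hE2m : MeasurableSet E2 := hEm.preimage (by fun_prop)
  have hπ3 := Real.pi_gt_three
  have hE2sub : E2 ⊆ Ioo (2 * π - w) (2 * π) := by
    intro θ hθ
    have := hEsub hθ
    simp only [mem_Ioo] at this ⊢
    constructor <;> linarith [this.1, this.2]
  have hdisj : Disjoint E E2 := by
    rw [Set.disjoint_left]
    intro θ hθ hθ2
    have b1 := (hEsub hθ).2
    have b2 := (hE2sub hθ2).1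
    linarith
  have hsubC : E ∪ E2 ⊆ Ioc 0 (2 * π) := by
    rintro θ (hθ | hθ)
    · have := hEsub hθ
      exact ⟨this.1, by linarith [this.2]⟩
    · have := hE2sub hθ
      exact ⟨by linarith [this.1], this.2.le⟩
  have hlogA : 0 ≤ Real.log A := Real.log_nonneg hA1
  set F : ℝ → ℝ := fun θ => PK wp (circleMap 0 r θ) with hF
  have hFc : Continuous F := continuous_PK_circleMap hw
  have hFi : IntervalIntegrable F volume 0 (2 * π) := hFc.intervalIntegrable _ _
  have hUm : MeasurableSet (E ∪ E2) := hEm.union hE2m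
  have hFE : IntervalIntegrable ((E ∪ E2).indicator F) volume 0 (2 * π) := by
    rw [intervalIntegrable_iff] at hFi ⊢
    exact hFi.indicator hUm
  set v : ℝ → ℝ := fun θ => Real.log A -
    (c + Real.log A) * (E ∪ E2).indicator (fun _ => (1 : ℝ)) θ with hv
  have hFv : (fun θ => F θ * v θ) =
      fun θ => Real.log A * F θ - (c + Real.log A) * (E ∪ E2).indicator F θ := by
    funext θ
    by_cases hθ : θ ∈ E ∪ E2
    · simp only [hv, Set.indicator_of_mem hθ]; ring
    · simp only [hv, Set.indicator_of_notMem hθ]; ring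
  have hsmall : ∀ θ, θ ∈ E → ‖p.eval (circleMap 0 r θ)‖ < Real.exp (-c) := by
    intro θ hθE
    simp only [hE, mem_iUnion, exists_prop] at hθE
    obtain ⟨j, hj, hθ1, hθ2⟩ := hθE
    have := hbad j hj θ hθ1.le hθ2
    rwa [← hpc] at this
  have key := log_norm_eval_le (v := v) hw p hpw0
    (by
      have : IntervalIntegrable (fun θ => F θ * v θ) volume 0 (2 * π) := by
        rw [hFv]
        exact (hFi.const_mul _).sub (hFE.const_mul _)
      exact this)
    (by
      intro θ hθ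
      by_cases hθE : θ ∈ E ∪ E2
      · simp only [hv, Set.indicator_of_mem hθE]
        have hlt : ‖p.eval (circleMap 0 r θ)‖ < Real.exp (-c) := by
          rcases hθE with h3 | h3
          · exact hsmall θ h3
          · have h4 := hsmall _ h3
            rw [hper, hconj] at h4
            exact h4
        have h5 := Real.log_le_log (norm_pos_iff.2 hθ) hlt.le
        rw [Real.log_exp] at h5
        linarith
      · simp only [hv, Set.indicator_of_notMem hθE]
        have := hA θ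
        rw [← hpc] at this
        have h5 := Real.log_le_log (norm_pos_iff.2 hθ) this
        linarith)
  have hfin : volume E ≠ ⊤ := by
    apply ne_top_of_le_ne_top _ (measure_mono hEsub)
    simp
  -- reflection
  have hrefl : ∫ θ in E2, F θ = ∫ θ in E, F (2 * π - θ) := by
    rw [← integral_indicator hE2m, ← integral_indicator hEm,
      ← integral_sub_left_eq_self (fun θ => E.indicator (fun θ => F (2 * π - θ)) θ) volume (2 * π)]
    congr 1
    funext θ
    by_cases hθ : θ ∈ E2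
    · rw [Set.indicator_of_mem hθ, Set.indicator_of_mem (show 2 * π - θ ∈ E from hθ)]
      congr 1; ring
    · rw [Set.indicator_of_notMem hθ, Set.indicator_of_notMem (show 2 * π - θ ∉ E from hθ)]
  have hFiE : IntegrableOn F E :=
    (hFc.integrableOn_Icc (a := 0) (b := w)).mono_set (hEsub.trans Ioo_subset_Icc_self)
  have hF2c : Continuous fun θ => F (2 * π - θ) := hFc.comp (by fun_prop)
  have hFiE' : IntegrableOn (fun θ => F (2 * π - θ)) E :=
    (hF2c.integrableOn_Icc (a := 0) (b := w)).mono_set (hEsub.trans Ioo_subset_Icc_self)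
  have hFiE2 : IntegrableOn F E2 :=
    (hFc.integrableOn_Icc (a := 2 * π - w) (b := 2 * π)).mono_set
      (hE2sub.trans Ioo_subset_Icc_self)
  have hint : ∫ θ in (0)..(2 * π), PK wp (circleMap 0 r θ) * v θ =
      Real.log A * (2 * π) - (c + Real.log A) * ∫ θ in E, (F θ + F (2 * π - θ)) := by
    have e1 : ∫ θ in (0)..(2 * π), PK wp (circleMap 0 r θ) * v θ =
        ∫ θ in (0)..(2 * π), (Real.log A * F θ - (c + Real.log A) * (E ∪ E2).indicator F θ) := by
      rw [← hFv]
    rw [e1, intervalIntegral.integral_sub (hFi.const_mul _) (hFE.const_mul _),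
      intervalIntegral.integral_const_mul, intervalIntegral.integral_const_mul, integral_PK hw]
    congr 2
    rw [intervalIntegral.integral_of_le (by positivity), setIntegral_indicator hUm,
      Set.inter_eq_right.2 hsubC, setIntegral_union hdisj hE2m hFiE hFiE2, hrefl,
      ← integral_add hFiE hFiE']
  have hlow : 1.89 / w * (B.card * h) ≤ ∫ θ in E, (F θ + F (2 * π - θ)) := by
    have : ∫ θ in E, (1.89 / w : ℝ) ≤ ∫ θ in E, (F θ + F (2 * π - θ)) := by
      apply setIntegral_mono_on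
      · exact integrableOn_const hfin
      · exact hFiE.add hFiE'
      · exact hEm
      · intro θ hθ
        have := PK_pair h0 h1 h2 hy hw1 hw2 hw0 (hEsub hθ).1.le (hEsub hθ).2.le
        simp only [hF]
        rw [hper]
        exact this
    rw [setIntegral_const, hEvol, smul_eq_mul] at this
    linarith
  have hlogε : Real.log ε ≤ Real.log ‖p.eval wp‖ := Real.log_le_log hε hpw
  rw [hint] at key
  have hcard0 : 0 ≤ (B.card : ℝ) * h := by positivity
  -- main inequality
  have hmain : (c + Real.log A) * (1.89 / w * (B.card * h)) ≤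
      2 * π * (Real.log A - Real.log ε) := by
    have h6 : (c + Real.log A) * (1.89 / w * (B.card * h)) ≤
        (c + Real.log A) * ∫ θ in E, (F θ + F (2 * π - θ)) :=
      mul_le_mul_of_nonneg_left hlow (by linarith)
    have h7 : 2 * π * Real.log ε ≤
        Real.log A * (2 * π) - (c + Real.log A) * ∫ θ in E, (F θ + F (2 * π - θ)) := by
      have h8 := hlogε.trans key
      have h9 : 2 * π * Real.log ε ≤ 2 * π * ((2 * π)⁻¹ *
          (Real.log A * (2 * π) - (c + Real.log A) * ∫ θ in E, (F θ + F (2 * π - θ)))) :=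
        mul_le_mul_of_nonneg_left h8 (by positivity)
      rwa [← mul_assoc, mul_inv_cancel₀ (by positivity), one_mul] at h9
    linarith
  -- conclusion
  set b : ℝ := (B.card : ℝ) with hb
  have hb0 : 0 ≤ b := Nat.cast_nonneg _
  have m1 : c * (1.89 / w * (b * h)) ≤ 2 * π * (c / 21) := by
    have h6 : c * (1.89 / w * (b * h)) ≤ (c + Real.log A) * (1.89 / w * (b * h)) :=
      mul_le_mul_of_nonneg_right (by linarith) (by positivity)
    have h7 : 2 * π * (Real.log A - Real.log ε) ≤ 2 * π * (c / 21) :=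
      mul_le_mul_of_nonneg_left (by linarith) (by positivity)
    linarith
  have m2 : 1.89 / w * (b * h) ≤ 2 * π / 21 := by
    have : c * (1.89 / w * (b * h)) ≤ c * (2 * π / 21) := by
      calc _ ≤ 2 * π * (c / 21) := m1
        _ = _ := by ring
    exact le_of_mul_le_mul_left this hc0
  have m3 : 1.89 * (b * h) ≤ (2 * π / 21) * w := by
    have : 1.89 / w * (b * h) = 1.89 * (b * h) / w := by ring
    rwa [this, div_le_iff₀ hw0] at m2
  have hπ2 : π < 3.1416 := Real.pi_lt_d4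
  have m4 : (2 * π / 21) * w ≤ 0.2993 * w := by
    apply mul_le_mul_of_nonneg_right _ hw0.le
    linarith
  have hLn : (999 : ℝ) ≤ L := by
    have : 999 * h ≤ L * h := by linarith
    exact le_of_mul_le_mul_right this hh
  have m5 : (6 * b + 2) * h ≤ L * h := by
    have : 2 * h ≤ (2 / 999) * (L * h) := by
      have := mul_le_mul_of_nonneg_right hLn hh.le
      linarith
    linarith
  have m6 : 6 * b + 2 ≤ L := le_of_mul_le_mul_right m5 hh
  rw [hb] at m6
  exact_mod_cast m6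

theorem few_bad6 {w0 A ε c h w : ℝ} {s : ℂ} {L m : ℕ} {a : ℕ → ℂ}
    (hreal : ∀ k, (starRingEnd ℂ) (a k) = a k) (h0 : 0 < w0) (h1 : 1000 * w0 ≤ s.re)
    (h2 : s.re ≤ 1 / 1000) (hy : |s.im| ≤ 3.05 * s.re)
    (hw1 : |s.im| ≤ s.re - w0 → w = s.re - w0) (hw2 : s.re - w0 < |s.im| → w = 5 / 3 * |s.im|)
    (hh : 0 < h) (hh2 : 1000 * h ≤ w) (hA1 : 1 ≤ A)
    (hA : ∀ x : ℝ, ‖expSum m a ((w0 : ℂ) - x * I)‖ ≤ A) (hε : 0 < ε) (hs : ε ≤ ‖expSum m a s‖)
    (hc0 : 0 < c) (hc : 21 * (Real.log A - Real.log ε) ≤ c)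
    (hL : (L : ℝ) * h ≤ w) (hL' : 0.999 * w ≤ (L : ℝ) * h) :
    ∃ bad : Finset ℕ, 6 * bad.card + 2 ≤ L ∧ ∀ j < L, j ∉ bad →
      ∃ x : ℝ, j * h ≤ x ∧ x ≤ (j + 1) * h ∧
        Real.exp (-c) ≤ ‖expSum m a ((w0 : ℂ) - x * I)‖ := by
  classical
  set B : Finset ℕ := (Finset.range L).filter fun j => ∀ x : ℝ, j * h ≤ x → x < (j + 1) * h →
    ‖expSum m a ((w0 : ℂ) - x * I)‖ < Real.exp (-c) with hB
  refine ⟨B, ?_, ?_⟩
  · exact few_bad6_core hreal h0 h1 h2 hy hw1 hw2 hh hh2 hA1 hA hε hs hc0 hc hL hL' B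
      (Finset.filter_subset _ _) (fun j hj x h3 h4 => (Finset.mem_filter.1 hj).2 x h3 h4)
  · intro j hj hjB
    by_contra hcon
    push Not at hcon
    apply hjB
    rw [hB, Finset.mem_filter, Finset.mem_range]
    exact ⟨hj, fun x h3 h4 => hcon x h3 h4.le⟩

end Vale.Agent.P321.R2.H613
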