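import Vale.Agent.P321.R2.H613.Avg6
import Vale.Agent.P321.UB.Product

/-! # Product relation with two tilts (window tilt `ω`, inner tilt `κ`, outer tilt `3 ω`) -/

namespace Vale.Agent.P321.R2.H613

open Complex Finset MeasureTheory Vale.Agent.P321.UB

/-! ### Window as a superposition -/

theorem inner_integrable' {θ ω κ ξ : ℝ} (hθ : 0 < θ) (x : ℝ) :
    Integrable (fun η : ℝ => gK θ 1 (ω + κ) η * cexp (((κ : ℂ) + (η + ξ : ℝ) * I) * x)) := by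
  have h := (integrable_gK_mul_exp (θ := θ) (a := 1) (β := ω + κ) hθ one_pos x).mul_const
    (cexp ((-(ω : ℂ) + ξ * I) * x))
  refine h.congr (Filter.Eventually.of_forall fun η => ?_)
  simp only
  rw [mul_assoc, ← Complex.exp_add]
  congr 2
  push_cast
  ring

theorem inner_integral' {θ ω κ ξ : ℝ} (hθ : 0 < θ) (x : ℝ) :
    ∫ η : ℝ, gK θ 1 (ω + κ) η * cexp (((κ : ℂ) + (η + ξ : ℝ) * I) * x) = wnd θ ω ξ x := by
  rw [wnd_eq, ← integral_gK (θ := θ) (a := 1) (β := ω + κ) (x := x) hθ one_pos,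
    ← integral_mul_const]
  congr 1
  ext η
  rw [mul_assoc, ← Complex.exp_add]
  congr 2
  push_cast
  ring

theorem Es_integrable' {θ ω κ ξ : ℝ} (hθ : 0 < θ) (i1 : ℕ) (f : ℕ → ℂ) (i : ℕ) :
    Integrable (fun η : ℝ => gK θ 1 (ω + κ) η * Es i1 κ ξ f η i) := by
  unfold Es
  simp_rw [Finset.mul_sum]
  apply integrable_finsetSum
  intro j _
  refine ((inner_integrable' (ω := ω) (κ := κ) (ξ := ξ) hθ ((j : ℝ) - i1)).const_mul (f j)).congr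
    (Filter.Eventually.of_forall fun η => ?_)
  simp only
  ring

theorem Gs_eq' {θ ω κ ξ : ℝ} (hθ : 0 < θ) (i1 : ℕ) (f : ℕ → ℂ) (i : ℕ) :
    Gs i1 θ ω ξ f i = ∫ η : ℝ, gK θ 1 (ω + κ) η * Es i1 κ ξ f η i := by
  unfold Es Gs
  simp_rw [Finset.mul_sum]
  rw [integral_finsetSum]
  · apply Finset.sum_congr rfl
    intro j _
    rw [← inner_integral' (κ := κ) hθ, ← integral_const_mul]
    congr 1
    ext η
    ring
  · intro j _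
    refine ((inner_integrable' (ω := ω) (κ := κ) (ξ := ξ) hθ ((j : ℝ) - i1)).const_mul (f j)).congr
      (Filter.Eventually.of_forall fun η => ?_)
    simp only
    ring

/-- Peeling one inner variable. -/
theorem peel_inner' {θ ω κ ξ : ℝ} (hθ : 0 < θ) (i1 N : ℕ) (f f' c c' : ℕ → ℂ) :
    ∑ i ∈ range N, (c i * Gs i1 θ ω ξ f i - c' i * Gs i1 θ ω ξ f' i) =
      ∫ η : ℝ, gK θ 1 (ω + κ) η *
        ∑ i ∈ range N, (c i * Es i1 κ ξ f η i - c' i * Es i1 κ ξ f' η i) := by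
  simp_rw [Finset.mul_sum]
  have hint : ∀ i ∈ range N, Integrable (fun η : ℝ => gK θ 1 (ω + κ) η *
      (c i * Es i1 κ ξ f η i - c' i * Es i1 κ ξ f' η i)) := by
    intro i _
    refine (((Es_integrable' (ω := ω) (κ := κ) (ξ := ξ) hθ i1 f i).const_mul (c i)).sub
      ((Es_integrable' (ω := ω) (κ := κ) (ξ := ξ) hθ i1 f' i).const_mul (c' i))).congr
      (Filter.Eventually.of_forall fun η => ?_)
    simp only [Pi.sub_apply]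
    ring
  rw [integral_finsetSum _ hint]
  apply Finset.sum_congr rfl
  intro i _
  rw [Gs_eq' (κ := κ) hθ, Gs_eq' (κ := κ) hθ, ← integral_const_mul, ← integral_const_mul,
    ← integral_sub
    ((Es_integrable' (ω := ω) (κ := κ) (ξ := ξ) hθ i1 f i).const_mul (c i))
    ((Es_integrable' (ω := ω) (κ := κ) (ξ := ξ) hθ i1 f' i).const_mul (c' i))]
  congr 1
  ext η
  ring

/-- Outer average bound. -/
theorem outer_avg {n i1 : ℕ} {ω θ a c0 lam X P Ξ : ℝ} (hi : i1 ≤ n) (hθ : 0 < θ) (ha : 0 < a)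
    {F F' : ℕ → ℂ} (heq : ∀ i < i1, F i = F' i)
    (hB : ∀ s : ℂ, s.re = 3 * ω → ‖NN n i1 F F' s‖ ≤ X + P * Ph lam s.im) :
    ‖∑ i ∈ range (n + 1), (F i - F' i) *
      cexp (((c0 : ℝ) + Ξ * I) * (((i : ℝ) - i1 : ℝ) : ℂ)) *
      cexp (-(a : ℂ) * (((i : ℝ) - i1 : ℝ) : ℂ) ^ 2 / (2 * θ ^ 2))‖ ≤
      Real.exp ((-3 * ω - c0) ^ 2 * θ ^ 2 / (2 * a)) *
        (X + P * (Real.exp (a * lam ^ 2 / (2 * θ ^ 2)) * Ph lam Ξ)) := by
  rw [peel_outer (β := -3 * ω - c0) hθ ha]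
  have hker : ∀ η : ℝ, ∑ i ∈ range (n + 1), ((F i - F' i) *
      cexp (((c0 : ℝ) + Ξ * I) * (((i : ℝ) - i1 : ℝ) : ℂ))) *
      cexp ((((-3 * ω - c0 : ℝ) : ℂ) + η * I) * (((i : ℝ) - i1 : ℝ) : ℂ)) =
      NN n i1 F F' (((3 * ω : ℝ) : ℂ) - ((η + Ξ : ℝ) : ℂ) * I) := by
    intro η
    rw [NN_eq_sum hi heq]
    apply Finset.sum_congr rfl
    intro i _
    rw [mul_assoc, ← Complex.exp_add]
    congr 2
    push_cast
    ring
  simp_rw [hker]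
  have key := avg_Ph (θ := θ) (a := a) (β := -3 * ω - c0) (lam := lam) (X := X) (P := P) (Q := 0)
    (u := Ξ) (v := 0) hθ ha
    (F := fun η => NN n i1 F F' (((3 * ω : ℝ) : ℂ) - ((η + Ξ : ℝ) : ℂ) * I)) (by
      intro η
      have h1 := hB (((3 * ω : ℝ) : ℂ) - ((η + Ξ : ℝ) : ℂ) * I) (by simp)
      have h2 : (((3 * ω : ℝ) : ℂ) - ((η + Ξ : ℝ) : ℂ) * I).im = -(η + Ξ) := by simp
      rw [h2, Ph_neg] at h1
      linarith)
  refine key.trans (le_of_eq ?_)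
  ring

theorem norm_cexp_le_one {κ : ℝ} (hκ : 0 ≤ κ) (y : ℝ) : ‖cexp (-((κ : ℂ) + y * I))‖ ≤ 1 := by
  rw [Complex.norm_exp]
  apply Real.exp_le_one_iff.mpr
  simp
  exact hκ

/-- Term with three outer factors. -/
theorem term3' {n i1 : ℕ} (hi : i1 ≤ n) {ω θ lam δ P : ℝ} (hθ : 0 < θ)
    {p p' q q' r r' : ℕ → ℂ} (hp : ∀ i < i1, p i = p' i) (hq : ∀ i < i1, q i = q' i)
    (hr : ∀ i < i1, r i = r' i) {ξp ξq ξr : ℝ}
    (hB : ∀ s : ℂ, s.re = 3 * ω →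
      ‖NN n i1 (fun i => p i * q i * r i) (fun i => p' i * q' i * r' i) s‖ ≤
        δ + P * Ph lam s.im) :
    ‖∑ i ∈ range (n + 1), ((p i * wnd θ ω ξp ((i : ℝ) - i1)) * (q i * wnd θ ω ξq ((i : ℝ) - i1)) *
        (r i * wnd θ ω ξr ((i : ℝ) - i1)) -
      (p' i * wnd θ ω ξp ((i : ℝ) - i1)) * (q' i * wnd θ ω ξq ((i : ℝ) - i1)) *
        (r' i * wnd θ ω ξr ((i : ℝ) - i1)))‖ ≤
      δ + P * (Real.exp (3 * lam ^ 2 / (2 * θ ^ 2)) * Ph lam (ξp + ξq + ξr)) := by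
  have h := outer_avg (a := 3) (Ξ := ξp + ξq + ξr) (ω := ω) (θ := θ) (c0 := -3 * ω) hi hθ
    (by norm_num) (F := fun i => p i * q i * r i) (F' := fun i => p' i * q' i * r' i)
    (fun i hi => by simp only [hp i hi, hq i hi, hr i hi]) hB
  have hE : ∑ i ∈ range (n + 1), ((p i * wnd θ ω ξp ((i : ℝ) - i1)) *
      (q i * wnd θ ω ξq ((i : ℝ) - i1)) * (r i * wnd θ ω ξr ((i : ℝ) - i1)) -
      (p' i * wnd θ ω ξp ((i : ℝ) - i1)) * (q' i * wnd θ ω ξq ((i : ℝ) - i1)) *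
        (r' i * wnd θ ω ξr ((i : ℝ) - i1))) =
      ∑ i ∈ range (n + 1), (p i * q i * r i - p' i * q' i * r' i) *
      cexp ((((-3 * ω : ℝ) : ℂ) + (ξp + ξq + ξr : ℝ) * I) * (((i : ℝ) - i1 : ℝ) : ℂ)) *
      cexp (-((3 : ℝ) : ℂ) * (((i : ℝ) - i1 : ℝ) : ℂ) ^ 2 / (2 * θ ^ 2)) := by
    apply Finset.sum_congr rfl
    intro i _
    have h1 : wnd θ ω ξp ((i : ℝ) - i1) * wnd θ ω ξq ((i : ℝ) - i1) * wnd θ ω ξr ((i : ℝ) - i1) =
        cexp ((((-3 * ω : ℝ) : ℂ) + (ξp + ξq + ξr : ℝ) * I) * (((i : ℝ) - i1 : ℝ) : ℂ)) *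
        cexp (-((3 : ℝ) : ℂ) * (((i : ℝ) - i1 : ℝ) : ℂ) ^ 2 / (2 * θ ^ 2)) := by
      unfold wnd
      rw [← Complex.exp_add, ← Complex.exp_add, ← Complex.exp_add]
      congr 1
      push_cast
      ring
    rw [mul_assoc (_ - _), ← h1]
    ring
  rw [hE]
  refine h.trans (le_of_eq ?_)
  simp

/-- Term with two outer factors and one inner. -/
theorem term2' {n i1 : ℕ} (hi : i1 ≤ n) {ω κ θ lam δ P Q : ℝ} (hκ : 0 ≤ κ) (hθ : 0 < θ)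
    (hδ : 0 ≤ δ) (hP : 0 ≤ P) (hQ : 0 ≤ Q)
    {p p' q q' r r' : ℕ → ℂ} (hp : ∀ i < i1, p i = p' i) (hq : ∀ i < i1, q i = q' i)
    (hr : ∀ i < i1, r i = r' i) {ξp ξq ξr : ℝ}
    (hB : ∀ y : ℝ, ∀ s : ℂ, s.re = 3 * ω →
      ‖NN n i1 (fun i => p i * q i * seqS (cexp (-((κ : ℂ) + y * I))) r i)
        (fun i => p' i * q' i * seqS (cexp (-((κ : ℂ) + y * I))) r' i) s‖ ≤
          δ + P * Ph lam s.im + Q * Ph lam y) :
    ‖∑ i ∈ range (n + 1), ((p i * wnd θ ω ξp ((i : ℝ) - i1)) * (q i * wnd θ ω ξq ((i : ℝ) - i1)) *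
        Gs i1 θ ω ξr r i -
      (p' i * wnd θ ω ξp ((i : ℝ) - i1)) * (q' i * wnd θ ω ξq ((i : ℝ) - i1)) *
        Gs i1 θ ω ξr r' i)‖ ≤
      Real.exp ((ω + κ) ^ 2 * θ ^ 2) *
        (δ + P * (Real.exp (3 * lam ^ 2 / (2 * θ ^ 2)) * Ph lam (ξp + ξq + ξr)) +
          Q * (Real.exp (lam ^ 2 / (2 * θ ^ 2)) * Ph lam ξr)) := by
  rw [peel_inner' (κ := κ) hθ]
  -- the inner sum for fixed η
  have hin : ∀ η : ℝ, ∑ i ∈ range (n + 1), ((p i * wnd θ ω ξp ((i : ℝ) - i1)) *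
      (q i * wnd θ ω ξq ((i : ℝ) - i1)) * Es i1 κ ξr r η i -
      (p' i * wnd θ ω ξp ((i : ℝ) - i1)) * (q' i * wnd θ ω ξq ((i : ℝ) - i1)) *
        Es i1 κ ξr r' η i) =
      cexp (-((κ : ℂ) + (η + ξr : ℝ) * I)) *
      ∑ i ∈ range (n + 1), (p i * q i * seqS (cexp (-((κ : ℂ) + (η + ξr : ℝ) * I))) r i -
        p' i * q' i * seqS (cexp (-((κ : ℂ) + (η + ξr : ℝ) * I))) r' i) *
      cexp ((((-2 * ω + κ : ℝ) : ℂ) + (η + (ξp + ξq + ξr) : ℝ) * I) * (((i : ℝ) - i1 : ℝ) : ℂ)) *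
      cexp (-((2 : ℝ) : ℂ) * (((i : ℝ) - i1 : ℝ) : ℂ) ^ 2 / (2 * θ ^ 2)) := by
    intro η
    rw [Finset.mul_sum]
    apply Finset.sum_congr rfl
    intro i _
    have h1 : wnd θ ω ξp ((i : ℝ) - i1) * wnd θ ω ξq ((i : ℝ) - i1) *
        cexp (((κ : ℂ) + (η + ξr : ℝ) * I) * (((i : ℝ) - i1 : ℝ) : ℂ)) =
        cexp ((((-2 * ω + κ : ℝ) : ℂ) + (η + (ξp + ξq + ξr) : ℝ) * I) *
          (((i : ℝ) - i1 : ℝ) : ℂ)) *
        cexp (-((2 : ℝ) : ℂ) * (((i : ℝ) - i1 : ℝ) : ℂ) ^ 2 / (2 * θ ^ 2)) := by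
      unfold wnd
      rw [← Complex.exp_add, ← Complex.exp_add, ← Complex.exp_add]
      congr 1
      push_cast
      ring
    unfold Es
    rw [sum_exp_eq_seqS, sum_exp_eq_seqS, mul_assoc (_ - _), ← h1]
    ring
  simp_rw [hin]
  have hseq : ∀ y : ℝ, ∀ i < i1, (fun i => p i * q i * seqS (cexp (-((κ : ℂ) + y * I))) r i) i =
      (fun i => p' i * q' i * seqS (cexp (-((κ : ℂ) + y * I))) r' i) i := by
    intro y i hi
    simp only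
    rw [hp i hi, hq i hi, seqS_congr (fun j hj => hr j (by omega))]
  set e2 := Real.exp ((-3 * ω - (-2 * ω + κ)) ^ 2 * θ ^ 2 / (2 * 2)) with he2
  have hmain := avg_Ph (θ := θ) (a := 1) (β := ω + κ) (lam := lam)
    (X := e2 * δ) (P := e2 * (P * Real.exp (2 * lam ^ 2 / (2 * θ ^ 2)))) (Q := e2 * Q)
    (u := ξp + ξq + ξr) (v := ξr) hθ one_pos
    (F := fun η : ℝ => cexp (-((κ : ℂ) + (η + ξr : ℝ) * I)) *
      ∑ i ∈ range (n + 1), (p i * q i * seqS (cexp (-((κ : ℂ) + (η + ξr : ℝ) * I))) r i -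
        p' i * q' i * seqS (cexp (-((κ : ℂ) + (η + ξr : ℝ) * I))) r' i) *
      cexp ((((-2 * ω + κ : ℝ) : ℂ) + (η + (ξp + ξq + ξr) : ℝ) * I) * (((i : ℝ) - i1 : ℝ) : ℂ)) *
      cexp (-((2 : ℝ) : ℂ) * (((i : ℝ) - i1 : ℝ) : ℂ) ^ 2 / (2 * θ ^ 2))) (by
      intro η
      rw [norm_mul]
      have h7 := outer_avg (a := 2) (Ξ := η + (ξp + ξq + ξr)) (ω := ω) (θ := θ)
        (c0 := -2 * ω + κ) (lam := lam) (X := δ + Q * Ph lam (η + ξr)) (P := P) hi hθ (by norm_num)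
        (hseq (η + ξr)) (fun s hs => by have := hB (η + ξr) s hs; linarith)
      calc _ ≤ 1 * _ :=
            mul_le_mul (norm_cexp_le_one hκ _) h7 (norm_nonneg _) zero_le_one
        _ = _ := by rw [one_mul, ← he2]; ring)
  have hform : Real.exp ((ω + κ) ^ 2 * θ ^ 2 / (2 * 1)) *
      (e2 * δ +
          e2 * (P * Real.exp (2 * lam ^ 2 / (2 * θ ^ 2))) *
            (Real.exp (1 * lam ^ 2 / (2 * θ ^ 2)) * Ph lam (ξp + ξq + ξr)) +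
        e2 * Q * (Real.exp (1 * lam ^ 2 / (2 * θ ^ 2)) * Ph lam ξr)) =
      (Real.exp ((ω + κ) ^ 2 * θ ^ 2 / (2 * 1)) * e2) *
      (δ + P * (Real.exp (3 * lam ^ 2 / (2 * θ ^ 2)) * Ph lam (ξp + ξq + ξr)) +
          Q * (Real.exp (lam ^ 2 / (2 * θ ^ 2)) * Ph lam ξr)) := by
    have h3 : Real.exp (3 * lam ^ 2 / (2 * θ ^ 2)) = Real.exp (2 * lam ^ 2 / (2 * θ ^ 2)) *
        Real.exp (1 * lam ^ 2 / (2 * θ ^ 2)) := by
      rw [← Real.exp_add]; congr 1; ring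
    rw [h3, one_mul]
    ring
  rw [hform] at hmain
  refine hmain.trans ?_
  apply mul_le_mul_of_nonneg_right
  · rw [he2, ← Real.exp_add]
    apply Real.exp_le_exp.2
    have : 0 ≤ (ω + κ) ^ 2 * θ ^ 2 := by positivity
    nlinarith
  · have h1 := (Ph_pos lam (ξp + ξq + ξr)).le
    have h2 := (Ph_pos lam ξr).le
    positivity

/-- Term with one outer factor and two inner ones. -/
theorem term1' {n i1 : ℕ} (hi : i1 ≤ n) {ω κ θ lam δ P Q : ℝ} (hκ : 0 ≤ κ) (hθ : 0 < θ)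
    {p p' q q' r r' : ℕ → ℂ} (hp : ∀ i < i1, p i = p' i) (hq : ∀ i < i1, q i = q' i)
    (hr : ∀ i < i1, r i = r' i) {ξp ξq ξr : ℝ}
    (hB : ∀ y y' : ℝ, ∀ s : ℂ, s.re = 3 * ω →
      ‖NN n i1 (fun i => p i * seqS (cexp (-((κ : ℂ) + y * I))) q i *
          seqS (cexp (-((κ : ℂ) + y' * I))) r i)
        (fun i => p' i * seqS (cexp (-((κ : ℂ) + y * I))) q' i *
          seqS (cexp (-((κ : ℂ) + y' * I))) r' i) s‖ ≤
        δ + P * Ph lam s.im + Q * (Ph lam y + Ph lam y')) :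
    ‖∑ i ∈ range (n + 1), ((p i * wnd θ ω ξp ((i : ℝ) - i1)) * Gs i1 θ ω ξq q i *
        Gs i1 θ ω ξr r i -
      (p' i * wnd θ ω ξp ((i : ℝ) - i1)) * Gs i1 θ ω ξq q' i *
        Gs i1 θ ω ξr r' i)‖ ≤
      Real.exp (3 * (ω + κ) ^ 2 * θ ^ 2) *
        (δ + P * (Real.exp (3 * lam ^ 2 / (2 * θ ^ 2)) * Ph lam (ξp + ξq + ξr)) +
          Q * (Real.exp (lam ^ 2 / (2 * θ ^ 2)) * (Ph lam ξq + Ph lam ξr))) := by
  rw [peel_inner' (κ := κ) hθ]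
  have hseq : ∀ y y' : ℝ, ∀ i < i1, (fun i => p i * seqS (cexp (-((κ : ℂ) + y * I))) q i *
        seqS (cexp (-((κ : ℂ) + y' * I))) r i) i =
      (fun i => p' i * seqS (cexp (-((κ : ℂ) + y * I))) q' i *
        seqS (cexp (-((κ : ℂ) + y' * I))) r' i) i := by
    intro y y' i hi
    simp only
    rw [hp i hi, seqS_congr (fun j hj => hq j (by omega)),
      seqS_congr (f := r) (f' := r') (fun j hj => hr j (by omega))]
  -- second peeling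
  have hpeel : ∀ η : ℝ, ∑ i ∈ range (n + 1), ((p i * wnd θ ω ξp ((i : ℝ) - i1)) *
      Gs i1 θ ω ξq q i * Es i1 κ ξr r η i -
      (p' i * wnd θ ω ξp ((i : ℝ) - i1)) * Gs i1 θ ω ξq q' i * Es i1 κ ξr r' η i) =
      ∫ ζ : ℝ, gK θ 1 (ω + κ) ζ *
      ((cexp (-((κ : ℂ) + (ζ + ξq : ℝ) * I)) * cexp (-((κ : ℂ) + (η + ξr : ℝ) * I))) *
      ∑ i ∈ range (n + 1), (p i * seqS (cexp (-((κ : ℂ) + (ζ + ξq : ℝ) * I))) q i *
          seqS (cexp (-((κ : ℂ) + (η + ξr : ℝ) * I))) r i -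
        p' i * seqS (cexp (-((κ : ℂ) + (ζ + ξq : ℝ) * I))) q' i *
          seqS (cexp (-((κ : ℂ) + (η + ξr : ℝ) * I))) r' i) *
      cexp ((((-ω + 2 * κ : ℝ) : ℂ) + (ζ + (η + (ξp + ξq + ξr)) : ℝ) * I) *
        (((i : ℝ) - i1 : ℝ) : ℂ)) *
      cexp (-((1 : ℝ) : ℂ) * (((i : ℝ) - i1 : ℝ) : ℂ) ^ 2 / (2 * θ ^ 2))) := by
    intro η
    have h0 : ∑ i ∈ range (n + 1), ((p i * wnd θ ω ξp ((i : ℝ) - i1)) *
      Gs i1 θ ω ξq q i * Es i1 κ ξr r η i -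
      (p' i * wnd θ ω ξp ((i : ℝ) - i1)) * Gs i1 θ ω ξq q' i * Es i1 κ ξr r' η i) =
      ∑ i ∈ range (n + 1), (((p i * wnd θ ω ξp ((i : ℝ) - i1)) * Es i1 κ ξr r η i) *
      Gs i1 θ ω ξq q i -
      ((p' i * wnd θ ω ξp ((i : ℝ) - i1)) * Es i1 κ ξr r' η i) * Gs i1 θ ω ξq q' i) := by
      apply Finset.sum_congr rfl
      intro i _
      ring
    rw [h0, peel_inner' (ω := ω) (κ := κ) (ξ := ξq) hθ i1 (n + 1) q q'
      (fun i => (p i * wnd θ ω ξp ((i : ℝ) - i1)) * Es i1 κ ξr r η i)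
      (fun i => (p' i * wnd θ ω ξp ((i : ℝ) - i1)) * Es i1 κ ξr r' η i)]
    congr 1
    ext ζ
    congr 1
    rw [Finset.mul_sum]
    apply Finset.sum_congr rfl
    intro i _
    have h1 : wnd θ ω ξp ((i : ℝ) - i1) *
        (cexp (((κ : ℂ) + (ζ + ξq : ℝ) * I) * (((i : ℝ) - i1 : ℝ) : ℂ)) *
        cexp (((κ : ℂ) + (η + ξr : ℝ) * I) * (((i : ℝ) - i1 : ℝ) : ℂ))) =
        cexp ((((-ω + 2 * κ : ℝ) : ℂ) + (ζ + (η + (ξp + ξq + ξr)) : ℝ) * I) *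
          (((i : ℝ) - i1 : ℝ) : ℂ)) *
        cexp (-((1 : ℝ) : ℂ) * (((i : ℝ) - i1 : ℝ) : ℂ) ^ 2 / (2 * θ ^ 2)) := by
      unfold wnd
      rw [← Complex.exp_add, ← Complex.exp_add, ← Complex.exp_add]
      congr 1
      push_cast
      ring
    unfold Es
    rw [sum_exp_eq_seqS, sum_exp_eq_seqS, sum_exp_eq_seqS, sum_exp_eq_seqS, mul_assoc (_ - _),
      ← h1]
    ring
  simp_rw [hpeel]
  set E1 := Real.exp ((-3 * ω - (-ω + 2 * κ)) ^ 2 * θ ^ 2 / (2 * 1)) with hE1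
  set E2 := Real.exp ((ω + κ) ^ 2 * θ ^ 2 / (2 * 1)) with hE2
  set G1 := Real.exp (1 * lam ^ 2 / (2 * θ ^ 2)) with hG1
  -- innermost sums
  have hin : ∀ η ζ : ℝ, ‖(cexp (-((κ : ℂ) + (ζ + ξq : ℝ) * I)) *
      cexp (-((κ : ℂ) + (η + ξr : ℝ) * I))) *
      ∑ i ∈ range (n + 1), (p i * seqS (cexp (-((κ : ℂ) + (ζ + ξq : ℝ) * I))) q i *
          seqS (cexp (-((κ : ℂ) + (η + ξr : ℝ) * I))) r i -
        p' i * seqS (cexp (-((κ : ℂ) + (ζ + ξq : ℝ) * I))) q' i *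
          seqS (cexp (-((κ : ℂ) + (η + ξr : ℝ) * I))) r' i) *
      cexp ((((-ω + 2 * κ : ℝ) : ℂ) + (ζ + (η + (ξp + ξq + ξr)) : ℝ) * I) *
        (((i : ℝ) - i1 : ℝ) : ℂ)) *
      cexp (-((1 : ℝ) : ℂ) * (((i : ℝ) - i1 : ℝ) : ℂ) ^ 2 / (2 * θ ^ 2))‖ ≤
      E1 * (δ + Q * Ph lam (η + ξr)) + (E1 * P * G1) * Ph lam (ζ + (η + (ξp + ξq + ξr))) +
        (E1 * Q) * Ph lam (ζ + ξq) := by
    intro η ζ
    rw [norm_mul, norm_mul]
    have h7 := outer_avg (a := 1) (Ξ := ζ + (η + (ξp + ξq + ξr))) (ω := ω) (θ := θ)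
      (c0 := -ω + 2 * κ) (lam := lam)
      (X := δ + Q * (Ph lam (ζ + ξq) + Ph lam (η + ξr))) (P := P) hi hθ (by norm_num)
      (hseq (ζ + ξq) (η + ξr))
      (fun s hs => by have := hB (ζ + ξq) (η + ξr) s hs; linarith)
    have h8 : ‖cexp (-((κ : ℂ) + (ζ + ξq : ℝ) * I))‖ * ‖cexp (-((κ : ℂ) + (η + ξr : ℝ) * I))‖ ≤ 1 :=
      mul_le_one₀ (norm_cexp_le_one hκ _) (norm_nonneg _) (norm_cexp_le_one hκ _)
    calc _ ≤ 1 * _ := mul_le_mul h8 h7 (norm_nonneg _) zero_le_one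
      _ = _ := by rw [one_mul, ← hE1, ← hG1]; ring
  -- average over ζ
  have hmid : ∀ η : ℝ, ‖∫ ζ : ℝ, gK θ 1 (ω + κ) ζ *
      ((cexp (-((κ : ℂ) + (ζ + ξq : ℝ) * I)) * cexp (-((κ : ℂ) + (η + ξr : ℝ) * I))) *
      ∑ i ∈ range (n + 1), (p i * seqS (cexp (-((κ : ℂ) + (ζ + ξq : ℝ) * I))) q i *
          seqS (cexp (-((κ : ℂ) + (η + ξr : ℝ) * I))) r i -
        p' i * seqS (cexp (-((κ : ℂ) + (ζ + ξq : ℝ) * I))) q' i *
          seqS (cexp (-((κ : ℂ) + (η + ξr : ℝ) * I))) r' i) *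
      cexp ((((-ω + 2 * κ : ℝ) : ℂ) + (ζ + (η + (ξp + ξq + ξr)) : ℝ) * I) *
        (((i : ℝ) - i1 : ℝ) : ℂ)) *
      cexp (-((1 : ℝ) : ℂ) * (((i : ℝ) - i1 : ℝ) : ℂ) ^ 2 / (2 * θ ^ 2)))‖ ≤
      E2 * (E1 * (δ + Q * G1 * Ph lam ξq)) + (E2 * E1 * P * G1 * G1) *
        Ph lam (η + (ξp + ξq + ξr)) + (E2 * E1 * Q) * Ph lam (η + ξr) := by
    intro η
    have h := avg_Ph (θ := θ) (a := 1) (β := ω + κ) (lam := lam) hθ one_pos (hin η)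
    refine h.trans (le_of_eq ?_)
    rw [← hE2, ← hG1]
    ring
  have hmain := avg_Ph (θ := θ) (a := 1) (β := ω + κ) (lam := lam) hθ one_pos hmid
  refine hmain.trans (le_of_eq ?_)
  rw [← hE2, ← hG1]
  have hG : Real.exp (lam ^ 2 / (2 * θ ^ 2)) = G1 := by rw [hG1, one_mul]
  have hG3 : Real.exp (3 * lam ^ 2 / (2 * θ ^ 2)) = G1 * G1 * G1 := by
    rw [hG1, ← Real.exp_add, ← Real.exp_add]; congr 1; ring
  have hE3 : Real.exp (3 * (ω + κ) ^ 2 * θ ^ 2) = E2 * E2 * E1 := by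
    rw [hE2, hE1, ← Real.exp_add, ← Real.exp_add]; congr 1; ring
  rw [hG, hG3, hE3]
  ring

/-- The weight attached to the parameter of a derived sequence. -/
noncomputable def phO (lam : ℝ) : Option ℝ → ℝ
  | none => 0
  | some y => Ph lam y

/-- Product relation for three windowed sums. -/
theorem product_relation6 {n i1 : ℕ} (hi : i1 ≤ n) {ω κ θ lam δ P Q : ℝ} (hκ : 0 ≤ κ) (hθ : 0 < θ)
    (hδ : 0 ≤ δ) (hP : 0 ≤ P) (hQ : 0 ≤ Q)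
    {f f' : Fin 3 → ℕ → ℂ} (heq : ∀ m, ∀ i < i1, f m i = f' m i) (ξ : Fin 3 → ℝ)
    (hN : ∀ o0 o1 o2 : Option ℝ, ∀ s : ℂ, s.re = 3 * ω →
      ‖NN n i1 (fun i => pick κ o0 (f 0) i * pick κ o1 (f 1) i * pick κ o2 (f 2) i)
        (fun i => pick κ o0 (f' 0) i * pick κ o1 (f' 1) i * pick κ o2 (f' 2) i) s‖ ≤
        δ + P * Ph lam s.im + Q * (phO lam o0 + phO lam o1 + phO lam o2)) :
    ‖VV n i1 θ ω (f 0) (ξ 0) * VV n i1 θ ω (f 1) (ξ 1) * VV n i1 θ ω (f 2) (ξ 2) -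
      VV n i1 θ ω (f' 0) (ξ 0) * VV n i1 θ ω (f' 1) (ξ 1) * VV n i1 θ ω (f' 2) (ξ 2)‖ ≤
      7 * (Real.exp (3 * (ω + κ) ^ 2 * θ ^ 2) *
        (δ + P * (Real.exp (3 * lam ^ 2 / (2 * θ ^ 2)) * Ph lam (ξ 0 + ξ 1 + ξ 2)) +
          Q * (Real.exp (lam ^ 2 / (2 * θ ^ 2)) * (Ph lam (ξ 0) + Ph lam (ξ 1) +
            Ph lam (ξ 2))))) := by
  have s1 : ξ 1 + ξ 0 + ξ 2 = ξ 0 + ξ 1 + ξ 2 := by ring
  have s2 : ξ 2 + ξ 0 + ξ 1 = ξ 0 + ξ 1 + ξ 2 := by ring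
  have s3 : ξ 0 + ξ 2 + ξ 1 = ξ 0 + ξ 1 + ξ 2 := by ring
  have s4 : ξ 1 + ξ 2 + ξ 0 = ξ 0 + ξ 1 + ξ 2 := by ring
  -- the seven terms
  have T3 := term3' (ω := ω) (θ := θ) (lam := lam) (δ := δ) (P := P) hi hθ
    (heq 0) (heq 1) (heq 2) (ξp := ξ 0) (ξq := ξ 1) (ξr := ξ 2)
    (fun s hs => by
      have h := hN none none none s hs
      simp only [pick, phO] at h
      linarith)
  have T2a := term2' (ω := ω) (κ := κ) (θ := θ) (lam := lam) (δ := δ) (P := P) (Q := Q) hi hκ hθ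
    hδ hP hQ (heq 0) (heq 1) (heq 2) (ξp := ξ 0) (ξq := ξ 1) (ξr := ξ 2)
    (fun y s hs => by
      have h := hN none none (some y) s hs
      simp only [pick, phO] at h
      linarith)
  have T2b := term2' (ω := ω) (κ := κ) (θ := θ) (lam := lam) (δ := δ) (P := P) (Q := Q) hi hκ hθ
    hδ hP hQ (heq 0) (heq 2) (heq 1) (ξp := ξ 0) (ξq := ξ 2) (ξr := ξ 1)
    (fun y s hs => by
      have h := hN none (some y) none s hs
      simp only [pick, phO, mul_right_comm] at h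
      linarith)
  have T2c := term2' (ω := ω) (κ := κ) (θ := θ) (lam := lam) (δ := δ) (P := P) (Q := Q) hi hκ hθ
    hδ hP hQ (heq 1) (heq 2) (heq 0) (ξp := ξ 1) (ξq := ξ 2) (ξr := ξ 0)
    (fun y s hs => by
      have h := hN (some y) none none s hs
      simp only [pick, phO] at h
      refine le_trans (le_of_eq ?_) (h.trans (by linarith))
      congr 2 <;> · funext i; ring)
  have T1a := term1' (ω := ω) (κ := κ) (θ := θ) (lam := lam) (δ := δ) (P := P) (Q := Q) hi hκ hθ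
    (heq 0) (heq 1) (heq 2) (ξp := ξ 0) (ξq := ξ 1) (ξr := ξ 2)
    (fun y y' s hs => by
      have h := hN none (some y) (some y') s hs
      simp only [pick, phO] at h
      linarith)
  have T1b := term1' (ω := ω) (κ := κ) (θ := θ) (lam := lam) (δ := δ) (P := P) (Q := Q) hi hκ hθ
    (heq 1) (heq 0) (heq 2) (ξp := ξ 1) (ξq := ξ 0) (ξr := ξ 2)
    (fun y y' s hs => by
      have h := hN (some y) none (some y') s hs
      simp only [pick, phO] at h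
      refine le_trans (le_of_eq ?_) (h.trans (by linarith))
      congr 2 <;> · funext i; ring)
  have T1c := term1' (ω := ω) (κ := κ) (θ := θ) (lam := lam) (δ := δ) (P := P) (Q := Q) hi hκ hθ
    (heq 2) (heq 0) (heq 1) (ξp := ξ 2) (ξq := ξ 0) (ξr := ξ 1)
    (fun y y' s hs => by
      have h := hN (some y) (some y') none s hs
      simp only [pick, phO] at h
      refine le_trans (le_of_eq ?_) (h.trans (by linarith))
      congr 2 <;> · funext i; ring)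
  rw [s1] at T1b
  rw [s2] at T1c
  rw [s3] at T2b
  rw [s4] at T2c
  -- decomposition
  have hdec : VV n i1 θ ω (f 0) (ξ 0) * VV n i1 θ ω (f 1) (ξ 1) * VV n i1 θ ω (f 2) (ξ 2) -
      VV n i1 θ ω (f' 0) (ξ 0) * VV n i1 θ ω (f' 1) (ξ 1) * VV n i1 θ ω (f' 2) (ξ 2) =
    (∑ i ∈ range (n + 1), ((f 0 i * wnd θ ω (ξ 0) ((i : ℝ) - i1)) * Gs i1 θ ω (ξ 1) (f 1) i *
        Gs i1 θ ω (ξ 2) (f 2) i -
      (f' 0 i * wnd θ ω (ξ 0) ((i : ℝ) - i1)) * Gs i1 θ ω (ξ 1) (f' 1) i *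
        Gs i1 θ ω (ξ 2) (f' 2) i)) +
    (∑ i ∈ range (n + 1), ((f 1 i * wnd θ ω (ξ 1) ((i : ℝ) - i1)) * Gs i1 θ ω (ξ 0) (f 0) i *
        Gs i1 θ ω (ξ 2) (f 2) i -
      (f' 1 i * wnd θ ω (ξ 1) ((i : ℝ) - i1)) * Gs i1 θ ω (ξ 0) (f' 0) i *
        Gs i1 θ ω (ξ 2) (f' 2) i)) +
    (∑ i ∈ range (n + 1), ((f 2 i * wnd θ ω (ξ 2) ((i : ℝ) - i1)) * Gs i1 θ ω (ξ 0) (f 0) i *
        Gs i1 θ ω (ξ 1) (f 1) i -
      (f' 2 i * wnd θ ω (ξ 2) ((i : ℝ) - i1)) * Gs i1 θ ω (ξ 0) (f' 0) i *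
        Gs i1 θ ω (ξ 1) (f' 1) i)) +
    (∑ i ∈ range (n + 1), ((f 0 i * wnd θ ω (ξ 0) ((i : ℝ) - i1)) *
        (f 1 i * wnd θ ω (ξ 1) ((i : ℝ) - i1)) * Gs i1 θ ω (ξ 2) (f 2) i -
      (f' 0 i * wnd θ ω (ξ 0) ((i : ℝ) - i1)) * (f' 1 i * wnd θ ω (ξ 1) ((i : ℝ) - i1)) *
        Gs i1 θ ω (ξ 2) (f' 2) i)) +
    (∑ i ∈ range (n + 1), ((f 0 i * wnd θ ω (ξ 0) ((i : ℝ) - i1)) *
        (f 2 i * wnd θ ω (ξ 2) ((i : ℝ) - i1)) * Gs i1 θ ω (ξ 1) (f 1) i -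
      (f' 0 i * wnd θ ω (ξ 0) ((i : ℝ) - i1)) * (f' 2 i * wnd θ ω (ξ 2) ((i : ℝ) - i1)) *
        Gs i1 θ ω (ξ 1) (f' 1) i)) +
    (∑ i ∈ range (n + 1), ((f 1 i * wnd θ ω (ξ 1) ((i : ℝ) - i1)) *
        (f 2 i * wnd θ ω (ξ 2) ((i : ℝ) - i1)) * Gs i1 θ ω (ξ 0) (f 0) i -
      (f' 1 i * wnd θ ω (ξ 1) ((i : ℝ) - i1)) * (f' 2 i * wnd θ ω (ξ 2) ((i : ℝ) - i1)) *
        Gs i1 θ ω (ξ 0) (f' 0) i)) +
    (∑ i ∈ range (n + 1), ((f 0 i * wnd θ ω (ξ 0) ((i : ℝ) - i1)) *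
        (f 1 i * wnd θ ω (ξ 1) ((i : ℝ) - i1)) * (f 2 i * wnd θ ω (ξ 2) ((i : ℝ) - i1)) -
      (f' 0 i * wnd θ ω (ξ 0) ((i : ℝ) - i1)) * (f' 1 i * wnd θ ω (ξ 1) ((i : ℝ) - i1)) *
        (f' 2 i * wnd θ ω (ξ 2) ((i : ℝ) - i1)))) := by
    unfold VV Gs
    rw [telescope3, telescope3]
    simp only [← Finset.sum_sub_distrib, ← Finset.sum_add_distrib]
    apply Finset.sum_congr rfl
    intro i _
    ring
  rw [hdec]
  set E := Real.exp (3 * (ω + κ) ^ 2 * θ ^ 2) with hE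
  set E' := Real.exp ((ω + κ) ^ 2 * θ ^ 2) with hE'
  set G3 := Real.exp (3 * lam ^ 2 / (2 * θ ^ 2)) with hG3
  set G1 := Real.exp (lam ^ 2 / (2 * θ ^ 2)) with hG1
  set H := Ph lam (ξ 0 + ξ 1 + ξ 2) with hH
  have hx : 0 ≤ (ω + κ) ^ 2 * θ ^ 2 := by positivity
  have hE1 : 1 ≤ E := Real.one_le_exp (by nlinarith)
  have hE'E : E' ≤ E := Real.exp_le_exp.2 (by nlinarith)
  have hE0 : 0 < E := Real.exp_pos _
  have hG30 : 0 < G3 := Real.exp_pos _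
  have hG10 : 0 < G1 := Real.exp_pos _
  have hH0 : 0 < H := Ph_pos _ _
  have h0 := (Ph_pos lam (ξ 0)).le
  have h1 := (Ph_pos lam (ξ 1)).le
  have h2 := (Ph_pos lam (ξ 2)).le
  set A := δ + P * (G3 * H) with hA
  have hA0 : 0 ≤ A := by positivity
  set Tt := A + Q * (G1 * (Ph lam (ξ 0) + Ph lam (ξ 1) + Ph lam (ξ 2))) with hTt
  have hmono : ∀ x, 0 ≤ x → x ≤ Ph lam (ξ 0) + Ph lam (ξ 1) + Ph lam (ξ 2) → 
      A + Q * (G1 * x) ≤ Tt := by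
    intro x _ hx
    rw [hTt]
    gcongr
  have hT0 : 0 ≤ Tt := by positivity
  have b3 : A ≤ E * Tt := by
    have : A ≤ Tt := by
      have := hmono 0 le_rfl (by positivity)
      simpa using this
    nlinarith
  have b2 : ∀ x, 0 ≤ x → x ≤ Ph lam (ξ 0) + Ph lam (ξ 1) + Ph lam (ξ 2) →
      E' * (A + Q * (G1 * x)) ≤ E * Tt := by
    intro x hx0 hx
    exact mul_le_mul hE'E (hmono x hx0 hx) (by positivity) hE0.le
  have b1 : ∀ x, 0 ≤ x → x ≤ Ph lam (ξ 0) + Ph lam (ξ 1) + Ph lam (ξ 2) →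
      E * (A + Q * (G1 * x)) ≤ E * Tt := by
    intro x hx0 hx
    exact mul_le_mul_of_nonneg_left (hmono x hx0 hx) hE0.le
  refine (norm_add_le_of_le (norm_add_le_of_le (norm_add_le_of_le (norm_add_le_of_le
    (norm_add_le_of_le (norm_add_le_of_le T1a T1b) T1c) T2a) T2b) T2c) T3).trans ?_
  have c1 := b1 (Ph lam (ξ 1) + Ph lam (ξ 2)) (by positivity) (by linarith)
  have c2 := b1 (Ph lam (ξ 0) + Ph lam (ξ 2)) (by positivity) (by linarith)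
  have c3 := b1 (Ph lam (ξ 0) + Ph lam (ξ 1)) (by positivity) (by linarith)
  have c4 := b2 (Ph lam (ξ 2)) (by positivity) (by linarith)
  have c5 := b2 (Ph lam (ξ 1)) (by positivity) (by linarith)
  have c6 := b2 (Ph lam (ξ 0)) (by positivity) (by linarith)
  linarith

end Vale.Agent.P321.R2.H613
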