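import Vale.Agent.P321.UB.Transfer

/-! # Transfer to the Gaussian window with a small displacement -/

namespace Vale.Agent.P321.R2.H613

open Complex Finset MeasureTheory Vale.Agent.P321.UB

/-- the elementary exponent inequality behind `transfer6` -/
theorem transfer_aux6 {t u y : ℝ} (ht : 0 ≤ t) (hu : 0 ≤ u) (hy : t / 1000 ≤ |y|) :
    t ^ 2 / (2 * 10 ^ 7) ≤ (y + u) ^ 2 / 4 + t * u := by
  have htu : 0 ≤ t * u := mul_nonneg ht hu
  have ht2 : 0 ≤ t ^ 2 := sq_nonneg t
  rcases le_total 0 y with h | h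
  · rw [abs_of_nonneg h] at hy
    have h1 : (t / 1000) ^ 2 ≤ (y + u) ^ 2 := by
      apply pow_le_pow_left₀ (by positivity)
      linarith
    nlinarith
  · rw [abs_of_nonpos h] at hy
    rcases le_total u (t / 2000) with h1 | h1
    · have h2 : (t / 2000) ^ 2 ≤ (-(y + u)) ^ 2 := by
        apply pow_le_pow_left₀ (by positivity)
        linarith
      nlinarith
    · have h2 : t * (t / 2000) ≤ t * u := mul_le_mul_of_nonneg_left h1 ht
      nlinarith [sq_nonneg (y + u)]

/-- Transfer from the exponential window to the exponential × Gaussian window. -/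
theorem transfer6 {m : ℕ} {a : ℕ → ℂ} {A κ0 θ ε : ℝ} {s0 : ℂ} (hA : 0 ≤ A)
    (ha : ∀ k < m, ‖a k‖ ≤ A) (hκ0 : 0 < κ0) (hθ : 1 ≤ κ0 * θ) (hs0 : s0.re = κ0)
    (hs : ε ≤ ‖expSum m a s0‖)
    (htail : 100 * A * m * Real.exp (-(κ0 ^ 2 * θ ^ 2) / (2 * 10 ^ 7)) ≤ ε) :
    ∃ η : ℝ, |η| ≤ κ0 / 1000 ∧
      ε / 2 ≤ ‖expSum m (fun k => a k * cexp (-(k : ℂ) ^ 2 / (2 * θ ^ 2))) (s0 + η)‖ := by
  rcases le_or_gt ε 0 with hε | hε
  · exact ⟨0, by rw [abs_zero]; positivity, by
      have := norm_nonneg (expSum m (fun k => a k * cexp (-(k : ℂ) ^ 2 / (2 * θ ^ 2)))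
        (s0 + (0 : ℝ)))
      linarith⟩
  by_contra hcon
  push Not at hcon
  have hθ0 : 0 < θ := by
    by_contra h
    push Not at h
    nlinarith
  have hθc : (θ : ℂ) ≠ 0 := by exact_mod_cast hθ0.ne'
  set w := θ ^ 2 / 2 with hw'
  have hw : 0 < w := by rw [hw']; positivity
  set N := θ / Real.sqrt (2 * Real.pi) with hN'
  have hN : 0 ≤ N := div_nonneg hθ0.le (Real.sqrt_nonneg _)
  have hNw : N * Real.sqrt (Real.pi / w) = 1 := by
    have := gK_coef hθ0 (zero_lt_one)
    simp only [mul_one] at this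
    exact this
  -- the normalised Gaussians
  set P : ℕ → ℝ → ℝ := fun k η => N * Real.exp (-w * (η - -((k : ℝ) / θ ^ 2)) ^ 2) with hP
  have hPi : ∀ k, Integrable (P k) := fun k => (gaussIntegrable hw _).const_mul _
  have hPm : ∀ k, ∫ η, P k η = 1 := by
    intro k
    rw [hP]
    simp only
    rw [integral_const_mul, gaussInt hw, hNw]
  -- the identity
  have hid : ∀ η : ℝ, ((N * Real.exp (-w * η ^ 2) : ℝ) : ℂ) *
      expSum m (fun k => a k * cexp (-(k : ℂ) ^ 2 / (2 * θ ^ 2))) (s0 + η)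
      = ∑ k ∈ range m, (a k * cexp (-s0 * k)) * ((P k η : ℝ) : ℂ) := by
    intro η
    rw [expSum, Finset.mul_sum]
    refine Finset.sum_congr rfl fun k _ => ?_
    have h1 : cexp (-(k : ℂ) ^ 2 / (2 * θ ^ 2)) * cexp (-(s0 + η) * k) *
        ((Real.exp (-w * η ^ 2) : ℝ) : ℂ)
        = cexp (-s0 * k) * ((Real.exp (-w * (η - -((k : ℝ) / θ ^ 2)) ^ 2) : ℝ) : ℂ) := by
      rw [ofReal_exp, ofReal_exp, ← Complex.exp_add, ← Complex.exp_add, ← Complex.exp_add]
      congr 1
      rw [hw']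
      push_cast
      field_simp
      ring
    rw [hP]
    push_cast at h1 ⊢
    linear_combination (a k * N) * h1
  have hI : ∫ η : ℝ, ((N * Real.exp (-w * η ^ 2) : ℝ) : ℂ) *
      expSum m (fun k => a k * cexp (-(k : ℂ) ^ 2 / (2 * θ ^ 2))) (s0 + η) = expSum m a s0 := by
    simp only [hid]
    rw [integral_finsetSum _ fun k _ => ((hPi k).ofReal).const_mul _, expSum]
    refine Finset.sum_congr rfl fun k _ => ?_
    rw [integral_const_mul, integral_complex_ofReal, hPm k, ofReal_one, mul_one]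
  -- the bound
  set T := Real.exp (-(κ0 ^ 2 * θ ^ 2) / (2 * 10 ^ 7)) with hT
  have hTpos : 0 < T := Real.exp_pos _
  have hgi : Integrable (fun η : ℝ => (ε / 2) * (N * Real.exp (-w * (η - 0) ^ 2))
      + ∑ k ∈ range m, (A * T * N) * Real.exp (-(w / 2) * (η - -((k : ℝ) / θ ^ 2)) ^ 2)) := by
    refine (((gaussIntegrable hw 0).const_mul N).const_mul _).add ?_
    exact integrable_finsetSum _ fun k _ => (gaussIntegrable (half_pos hw) _).const_mul _
  have hle : ∀ η : ℝ, ‖((N * Real.exp (-w * η ^ 2) : ℝ) : ℂ) *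
      expSum m (fun k => a k * cexp (-(k : ℂ) ^ 2 / (2 * θ ^ 2))) (s0 + η)‖
      ≤ (ε / 2) * (N * Real.exp (-w * (η - 0) ^ 2))
      + ∑ k ∈ range m, (A * T * N) * Real.exp (-(w / 2) * (η - -((k : ℝ) / θ ^ 2)) ^ 2) := by
    intro η
    have h1 : 0 ≤ ∑ k ∈ range m, (A * T * N) *
        Real.exp (-(w / 2) * (η - -((k : ℝ) / θ ^ 2)) ^ 2) :=
      Finset.sum_nonneg fun k _ => by positivity
    have h2 : 0 ≤ (ε / 2) * (N * Real.exp (-w * (η - 0) ^ 2)) := by positivity
    rcases le_or_gt |η| (κ0 / 1000) with h | h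
    · have h3 := (hcon η h).le
      rw [norm_mul, norm_real, Real.norm_eq_abs, abs_of_nonneg (by positivity)]
      have h4 : 0 ≤ N * Real.exp (-w * η ^ 2) := by positivity
      have h5 := mul_le_mul_of_nonneg_left h3 h4
      rw [sub_zero]
      linarith
    · rw [hid]
      refine (norm_sum_le _ _).trans ?_
      refine le_trans (Finset.sum_le_sum fun k hk => ?_) (le_add_of_nonneg_left h2)
      have h3 : ‖a k * cexp (-s0 * k)‖ ≤ A * Real.exp (-(κ0 * k)) := by
        rw [norm_mul, norm_exp]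
        have : (-s0 * k).re = -(κ0 * k) := by
          rw [neg_mul, neg_re, mul_re, natCast_re, natCast_im, hs0]
          ring
        rw [this]
        exact mul_le_mul_of_nonneg_right (ha k (Finset.mem_range.1 hk)) (Real.exp_pos _).le
      have h4 : ‖((P k η : ℝ) : ℂ)‖ = N * Real.exp (-w * (η - -((k : ℝ) / θ ^ 2)) ^ 2) := by
        rw [norm_real, Real.norm_eq_abs, abs_of_nonneg (by rw [hP]; positivity)]
      rw [norm_mul, h4]
      have h5 : Real.exp (-(κ0 * k)) * Real.exp (-w * (η - -((k : ℝ) / θ ^ 2)) ^ 2)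
          ≤ T * Real.exp (-(w / 2) * (η - -((k : ℝ) / θ ^ 2)) ^ 2) := by
        rw [hT, ← Real.exp_add, ← Real.exp_add, Real.exp_le_exp]
        have hx := transfer_aux6 (t := κ0 * θ) (u := (k : ℝ) / θ) (y := η * θ) (by positivity)
          (by positivity) (by
            rw [abs_mul, abs_of_pos hθ0]
            nlinarith)
        have e1 : κ0 * θ * ((k : ℝ) / θ) = κ0 * k := by field_simp
        have e2 : (w / 2) * (η - -((k : ℝ) / θ ^ 2)) ^ 2 = (η * θ + (k : ℝ) / θ) ^ 2 / 4 := by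
          rw [hw']
          field_simp
          ring
        have e3 : -w * (η - -((k : ℝ) / θ ^ 2)) ^ 2
            = -((w / 2) * (η - -((k : ℝ) / θ ^ 2)) ^ 2) - (w / 2) * (η - -((k : ℝ) / θ ^ 2)) ^ 2 := by
          ring
        have e4 : -(w / 2) * (η - -((k : ℝ) / θ ^ 2)) ^ 2
            = -((w / 2) * (η - -((k : ℝ) / θ ^ 2)) ^ 2) := by ring
        have e5 : -(κ0 ^ 2 * θ ^ 2) / (2 * 10 ^ 7) = -((κ0 * θ) ^ 2 / (2 * 10 ^ 7)) := by ring
        rw [e1] at hx
        rw [e3, e4, e5, e2]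
        linarith
      calc ‖a k * cexp (-s0 * k)‖ * (N * Real.exp (-w * (η - -((k : ℝ) / θ ^ 2)) ^ 2))
          ≤ (A * Real.exp (-(κ0 * k))) * (N * Real.exp (-w * (η - -((k : ℝ) / θ ^ 2)) ^ 2)) :=
            mul_le_mul_of_nonneg_right h3 (by positivity)
        _ = (A * N) * (Real.exp (-(κ0 * k)) * Real.exp (-w * (η - -((k : ℝ) / θ ^ 2)) ^ 2)) := by
            ring
        _ ≤ (A * N) * (T * Real.exp (-(w / 2) * (η - -((k : ℝ) / θ ^ 2)) ^ 2)) :=
            mul_le_mul_of_nonneg_left h5 (by positivity)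
        _ = _ := by ring
  have hfin := norm_integral_le_of_norm_le hgi (Filter.Eventually.of_forall hle)
  rw [hI, integral_add (((gaussIntegrable hw 0).const_mul N).const_mul _)
    (integrable_finsetSum _ fun k _ => (gaussIntegrable (half_pos hw) _).const_mul _),
    integral_const_mul, integral_const_mul, gaussInt hw, hNw,
    integral_finsetSum _ fun k _ => (gaussIntegrable (half_pos hw) _).const_mul _] at hfin
  have h7 : N * Real.sqrt (Real.pi / (w / 2)) = Real.sqrt 2 := by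
    have h8 : Real.pi / (w / 2) = 2 * (Real.pi / w) := by
      field_simp
    rw [h8, Real.sqrt_mul (by norm_num)]
    linear_combination Real.sqrt 2 * hNw
  have h8 : ∀ k ∈ range m, ∫ η : ℝ, (A * T * N) *
      Real.exp (-(w / 2) * (η - -((k : ℝ) / θ ^ 2)) ^ 2) = A * T * Real.sqrt 2 := by
    intro k _
    rw [integral_const_mul, gaussInt (half_pos hw)]
    linear_combination A * T * h7
  rw [Finset.sum_congr rfl h8, Finset.sum_const, Finset.card_range, nsmul_eq_mul] at hfin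
  have hs2 : Real.sqrt 2 ≤ 2 := by
    rw [Real.sqrt_le_left (by norm_num)]
    norm_num
  have h9 : 0 ≤ A * m * T := by positivity
  have h10 : (m : ℝ) * (A * T * Real.sqrt 2) ≤ 2 * (A * m * T) := by nlinarith
  have h11 : 100 * (A * m * T) ≤ ε := by linarith
  linarith

end Vale.Agent.P321.R2.H613
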