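import Vale.Agent.P321.R2.H613.NoPhase6
import Vale.Agent.P321.R2.H613.Product6
import Vale.Agent.P321.R2.H613.Transfer6
import Vale.Agent.P321.R2.H613.Count6
import Vale.Agent.P321.UB.StepAux

/-! # The induction step on real sequences, with small constants -/

namespace Vale.Agent.P321.R2.H613

open Complex Finset Vale.Agent.P321.UB

/-- One of the two pairs `(f,f')`, `(1,1)`. -/
def Simple6 (f f' g g' : ℕ → ℂ) : Prop :=
  (g = f ∧ g' = f') ∨ (g = (fun _ => 1) ∧ g' = (fun _ => 1))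

theorem Simple6.norm_le {f f' g g' : ℕ → ℂ} (h : Simple6 f f' g g') {n : ℕ}
    (hf : ∀ i ≤ n, ‖f i‖ ≤ 1) (hf' : ∀ i ≤ n, ‖f' i‖ ≤ 1) :
    (∀ i ≤ n, ‖g i‖ ≤ 1) ∧ ∀ i ≤ n, ‖g' i‖ ≤ 1 := by
  rcases h with ⟨rfl, rfl⟩ | ⟨rfl, rfl⟩
  · exact ⟨hf, hf'⟩
  · simp

theorem Simple6.eq_of {f f' g g' : ℕ → ℂ} (h : Simple6 f f' g g') {i1 : ℕ}
    (heq : ∀ i < i1, f i = f' i) : ∀ i < i1, g i = g' i := by
  rcases h with ⟨rfl, rfl⟩ | ⟨rfl, rfl⟩
  · exact heq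
  · intro i hi; rfl

theorem norm_pick_le {n : ℕ} {κ : ℝ} (hκ : 0 ≤ κ) (o : Option ℝ) {g : ℕ → ℂ}
    (hg : ∀ i ≤ n, ‖g i‖ ≤ 1) : ∀ i ≤ n, ‖pick κ o g i‖ ≤ (n : ℝ) + 1 := by
  intro i hi
  cases o with
  | none => exact (hg i hi).trans (by have : (0 : ℝ) ≤ n := Nat.cast_nonneg n; linarith)
  | some y =>
    refine (norm_seqS_le (n := n) (norm_cexp_le_one hκ y) zero_le_one hg i hi).trans ?_
    linarith

/-- The triple product relation under the negation of the conclusion of `step6`.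
`ω = 1000 κ`, `G = ω² θ² = 0.2862 c`, `c = 21.01 D`. -/
theorem triple6 {n i1 : ℕ} (hi : i1 ≤ n) {f f' : ℕ → ℂ} {D κ0 κ c θ : ℝ}
    (hD : 10 ^ 6 ≤ D) (hf : ∀ i ≤ n, ‖f i‖ ≤ 1) (hf' : ∀ i ≤ n, ‖f' i‖ ≤ 1)
    (heq : ∀ i < i1, f i = f' i) (hn : (n : ℝ) + 1 ≤ Real.exp (D / 10 ^ 5)) (hκ : 0 < κ)
    (hκκ : 10 ^ 8 * κ ≤ κ0) (hθ : 0 < θ) (hκθ : κ ^ 2 * θ ^ 2 = 0.2862 * c / 10 ^ 6)
    (hc : c = 21.01 * D)
    (hN : ∀ g g' F F' : Fin 3 → ℕ → ℂ, (∀ m, Simple6 f f' (g m) (g' m)) →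
      (∀ m, Derived κ (6 * κ0) (g m) (g' m) (F m) (F' m)) →
      ∀ s : ℂ, s.re = 3000 * κ → |s.im| ≤ 9000 * κ →
        ‖NN n i1 (fun i => F 0 i * F 1 i * F 2 i) (fun i => F' 0 i * F' 1 i * F' 2 i) s‖ ≤
          Real.exp (-(83 * D)))
    {g g' : Fin 3 → ℕ → ℂ} (hg : ∀ m, Simple6 f f' (g m) (g' m))
    {ξ : Fin 3 → ℝ} (hξ : ∀ m, |ξ m| ≤ 5 * κ0) (hs : |ξ 0 + ξ 1 + ξ 2| ≤ 2 * κ) :
    ‖VV n i1 θ (1000 * κ) (g 0) (ξ 0) * VV n i1 θ (1000 * κ) (g 1) (ξ 1) *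
        VV n i1 θ (1000 * κ) (g 2) (ξ 2) -
      VV n i1 θ (1000 * κ) (g' 0) (ξ 0) * VV n i1 θ (1000 * κ) (g' 1) (ξ 1) *
        VV n i1 θ (1000 * κ) (g' 2) (ξ 2)‖ ≤
      Real.exp (-(3 * c + 2 * (D / 10 ^ 5))) := by
  set ℓ := D / 10 ^ 5 with hℓ
  have hℓ10 : 10 ≤ ℓ := by rw [hℓ, le_div_iff₀ (by norm_num)]; linarith
  have hDℓ : D = 10 ^ 5 * ℓ := by rw [hℓ]; ring
  have hκ0 : 0 < κ0 := by linarith
  set lam : ℝ := 8998 * κ * θ ^ 2 / 3 with hlam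
  have hlam0 : 0 < lam := by positivity
  set M : ℝ := Real.exp (5 * ℓ) with hM
  have hM0 : 0 < M := Real.exp_pos _
  set δ : ℝ := Real.exp (-(83 * D)) with hδ
  set P : ℝ := M * Real.exp (-(lam * (9000 * κ))) with hP
  set Q : ℝ := M * Real.exp (-(lam * (6 * κ0))) with hQ
  have hP0 : 0 < P := by positivity
  have hQ0 : 0 < Q := by positivity
  have hδ0 : 0 < δ := Real.exp_pos _
  have hMbound : ((n : ℝ) + 1) * (2 * ((n : ℝ) + 1) ^ 3) ≤ M := by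
    have h1 : (0 : ℝ) ≤ (n : ℝ) + 1 := by positivity
    have h2 : (2 : ℝ) ≤ Real.exp ℓ := by
      have := Real.add_one_le_exp ℓ; linarith
    calc ((n : ℝ) + 1) * (2 * ((n : ℝ) + 1) ^ 3)
        ≤ Real.exp ℓ * (Real.exp ℓ * Real.exp ℓ ^ 3) := by gcongr
      _ = M := by
        rw [hM, ← Real.exp_nat_mul, ← Real.exp_add, ← Real.exp_add]; congr 1; push_cast; ring
  have key := product_relation6 (n := n) (i1 := i1) hi (ω := 1000 * κ) (κ := κ) (θ := θ)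
    (lam := lam) (δ := δ) (P := P) (Q := Q) hκ.le hθ hδ0.le hP0.le hQ0.le
    (f := g) (f' := g') (fun m => (hg m).eq_of heq) ξ (by
      intro o0 o1 o2 s hsre
      have hsre' : s.re = 3000 * κ := by rw [hsre]; ring
      have htriv : ‖NN n i1 (fun i => pick κ o0 (g 0) i * pick κ o1 (g 1) i * pick κ o2 (g 2) i)
          (fun i => pick κ o0 (g' 0) i * pick κ o1 (g' 1) i * pick κ o2 (g' 2) i) s‖ ≤ M := by
        refine le_trans (norm_NN_mul3_le (n := n) (i1 := i1)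
          (F := ![pick κ o0 (g 0), pick κ o1 (g 1), pick κ o2 (g 2)])
          (F' := ![pick κ o0 (g' 0), pick κ o1 (g' 1), pick κ o2 (g' 2)])
          (B' := (n : ℝ) + 1) ?_ ?_ (by rw [hsre']; positivity)) hMbound
        · intro m
          fin_cases m
          · exact norm_pick_le hκ.le o0 ((hg 0).norm_le hf hf').1
          · exact norm_pick_le hκ.le o1 ((hg 1).norm_le hf hf').1
          · exact norm_pick_le hκ.le o2 ((hg 2).norm_le hf hf').1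
        · intro m
          fin_cases m
          · exact norm_pick_le hκ.le o0 ((hg 0).norm_le hf hf').2
          · exact norm_pick_le hκ.le o1 ((hg 1).norm_le hf hf').2
          · exact norm_pick_le hκ.le o2 ((hg 2).norm_le hf hf').2
      have hphO : ∀ o : Option ℝ, 0 ≤ phO lam o := by
        intro o
        cases o with
        | none => exact le_rfl
        | some y => exact (Ph_pos lam y).le
      have n0 := hphO o0
      have n1 := hphO o1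
      have n2 := hphO o2
      have nP : 0 ≤ P * Ph lam s.im := by have := Ph_pos lam s.im; positivity
      have hbig : ∀ o : Option ℝ, (∃ y, o = some y ∧ 6 * κ0 < |y|) → M ≤ Q * phO lam o := by
        rintro o ⟨y, rfl, hy⟩
        have h1 := le_Ph hlam0.le hy.le
        calc M = M * Real.exp (-(lam * (6 * κ0))) * Real.exp (lam * (6 * κ0)) := by
              rw [mul_assoc, ← Real.exp_add]; simp
          _ ≤ Q * Ph lam y := mul_le_mul_of_nonneg_left h1 hQ0.le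
      by_cases hc1 : 9000 * κ < |s.im|
      · have h1 := le_Ph hlam0.le hc1.le
        have h2 : M ≤ P * Ph lam s.im := by
          calc M = M * Real.exp (-(lam * (9000 * κ))) * Real.exp (lam * (9000 * κ)) := by
                rw [mul_assoc, ← Real.exp_add]; simp
            _ ≤ P * Ph lam s.im := mul_le_mul_of_nonneg_left h1 hP0.le
        have : 0 ≤ Q * (phO lam o0 + phO lam o1 + phO lam o2) := by positivity
        linarith
      push Not at hc1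
      by_cases hb0 : ∃ y, o0 = some y ∧ 6 * κ0 < |y|
      · have h1 := hbig o0 hb0
        have h2 : Q * phO lam o0 ≤ Q * (phO lam o0 + phO lam o1 + phO lam o2) :=
          mul_le_mul_of_nonneg_left (by linarith) hQ0.le
        linarith
      by_cases hb1 : ∃ y, o1 = some y ∧ 6 * κ0 < |y|
      · have h1 := hbig o1 hb1
        have h2 : Q * phO lam o1 ≤ Q * (phO lam o0 + phO lam o1 + phO lam o2) :=
          mul_le_mul_of_nonneg_left (by linarith) hQ0.le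
        linarith
      by_cases hb2 : ∃ y, o2 = some y ∧ 6 * κ0 < |y|
      · have h1 := hbig o2 hb2
        have h2 : Q * phO lam o2 ≤ Q * (phO lam o0 + phO lam o1 + phO lam o2) :=
          mul_le_mul_of_nonneg_left (by linarith) hQ0.le
        linarith
      push Not at hb0 hb1 hb2
      have hgen : ∀ (o : Option ℝ) (m : Fin 3), (∀ y, o = some y → |y| ≤ 6 * κ0) →
          Derived κ (6 * κ0) (g m) (g' m) (pick κ o (g m)) (pick κ o (g' m)) := by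
        intro o m ho
        cases o with
        | none => exact Or.inl ⟨rfl, rfl⟩
        | some y => exact Or.inr ⟨y, ho y rfl, rfl, rfl⟩
      have h1 := hN g g' ![pick κ o0 (g 0), pick κ o1 (g 1), pick κ o2 (g 2)]
        ![pick κ o0 (g' 0), pick κ o1 (g' 1), pick κ o2 (g' 2)] hg (by
          intro m
          fin_cases m
          · exact hgen o0 0 hb0
          · exact hgen o1 1 hb1
          · exact hgen o2 2 hb2) s hsre' hc1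
      have h2 : 0 ≤ Q * (phO lam o0 + phO lam o1 + phO lam o2) := by positivity
      have h3 : ‖NN n i1 (fun i => pick κ o0 (g 0) i * pick κ o1 (g 1) i * pick κ o2 (g 2) i)
          (fun i => pick κ o0 (g' 0) i * pick κ o1 (g' 1) i * pick κ o2 (g' 2) i) s‖ ≤ δ := h1
      linarith)
  refine key.trans ?_
  -- numerics
  have hG : κ ^ 2 * θ ^ 2 = 0.2862 * c / 10 ^ 6 := hκθ
  have hcD : c = 2101000 * ℓ := by rw [hc, hDℓ]; ring
  have eE : 3 * (1000 * κ + κ) ^ 2 * θ ^ 2 = 3.006003 * 0.2862 * c := by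
    calc 3 * (1000 * κ + κ) ^ 2 * θ ^ 2 = 3006003 * (κ ^ 2 * θ ^ 2) := by ring
      _ = _ := by rw [hG]; ring
  have hθ2 : 0 < θ ^ 2 := by positivity
  have elam2 : lam ^ 2 / (2 * θ ^ 2) = 8998 ^ 2 / 18 * (κ ^ 2 * θ ^ 2) := by
    rw [hlam]; field_simp; ring
  have elam3 : 3 * lam ^ 2 / (2 * θ ^ 2) = 8998 ^ 2 / 6 * (κ ^ 2 * θ ^ 2) := by
    calc 3 * lam ^ 2 / (2 * θ ^ 2) = 3 * (lam ^ 2 / (2 * θ ^ 2)) := by ring
      _ = _ := by rw [elam2]; ring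
  have hlκ : lam * κ = 8998 / 3 * (κ ^ 2 * θ ^ 2) := by rw [hlam]; ring
  have hPh1 : Ph lam (ξ 0 + ξ 1 + ξ 2) ≤ 2 * Real.exp (lam * (2 * κ)) := Ph_le hlam0.le hs
  have hPh2 : ∀ m, Ph lam (ξ m) ≤ 2 * Real.exp (lam * (5 * κ0)) := fun m => Ph_le hlam0.le (hξ m)
  set Tgt := Real.exp (-(3 * c + 2 * ℓ)) with hTgt
  have hTgt0 : 0 < Tgt := Real.exp_pos _
  have h22000 : (1000 : ℝ) ≤ Real.exp ℓ := by
    have h1 : Real.exp 10 ≤ Real.exp ℓ := Real.exp_le_exp.2 hℓ10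
    have h2 : Real.exp 10 = Real.exp 1 ^ 10 := by rw [← Real.exp_nat_mul]; norm_num
    have h3 : (2 : ℝ) ^ 10 ≤ Real.exp 1 ^ 10 :=
      pow_le_pow_left₀ (by norm_num) (by linarith [Real.exp_one_gt_d9]) 10
    rw [h2] at h1
    norm_num at h3
    linarith
  -- first term
  have t1 : Real.exp (3.006003 * 0.2862 * c) * δ ≤ Tgt * Real.exp (-ℓ) := by
    rw [hδ, hTgt, ← Real.exp_add, ← Real.exp_add]
    apply Real.exp_le_exp.2
    rw [hcD, hDℓ]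
    linarith
  -- second term
  have t2 : Real.exp (3.006003 * 0.2862 * c) *
      (P * (Real.exp (3 * lam ^ 2 / (2 * θ ^ 2)) * (2 * Real.exp (lam * (2 * κ))))) ≤
      2 * (Tgt * Real.exp (-ℓ)) := by
    have e1 : Real.exp (3.006003 * 0.2862 * c) *
      (P * (Real.exp (3 * lam ^ 2 / (2 * θ ^ 2)) * (2 * Real.exp (lam * (2 * κ))))) =
      2 * Real.exp (3.006003 * 0.2862 * c + 5 * ℓ - lam * (9000 * κ) + 3 * lam ^ 2 / (2 * θ ^ 2) +
        lam * (2 * κ)) := by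
      rw [hP, hM, Real.exp_add, Real.exp_add, Real.exp_sub, Real.exp_add, Real.exp_neg]
      field_simp
    rw [e1, hTgt, ← Real.exp_add]
    apply mul_le_mul_of_nonneg_left _ (by norm_num)
    apply Real.exp_le_exp.2
    have e2 : 3.006003 * 0.2862 * c + 5 * ℓ - lam * (9000 * κ) + 3 * lam ^ 2 / (2 * θ ^ 2) +
        lam * (2 * κ) = 3.006003 * 0.2862 * c + 5 * ℓ - 8998 * (lam * κ) +
          3 * lam ^ 2 / (2 * θ ^ 2) := by ring
    rw [e2, elam3, hlκ, hG, hcD]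
    linarith
  -- third term
  have t3 : Real.exp (3.006003 * 0.2862 * c) *
      (Q * (Real.exp (lam ^ 2 / (2 * θ ^ 2)) * (2 * Real.exp (lam * (5 * κ0)) +
        2 * Real.exp (lam * (5 * κ0)) + 2 * Real.exp (lam * (5 * κ0))))) ≤
      6 * (Tgt * Real.exp (-ℓ)) := by
    have e1 : Real.exp (3.006003 * 0.2862 * c) *
      (Q * (Real.exp (lam ^ 2 / (2 * θ ^ 2)) * (2 * Real.exp (lam * (5 * κ0)) +
        2 * Real.exp (lam * (5 * κ0)) + 2 * Real.exp (lam * (5 * κ0))))) =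
      6 * Real.exp (3.006003 * 0.2862 * c + 5 * ℓ - lam * (6 * κ0) + lam ^ 2 / (2 * θ ^ 2) +
        lam * (5 * κ0)) := by
      rw [hQ, hM, Real.exp_add, Real.exp_add, Real.exp_sub, Real.exp_add, Real.exp_neg]
      field_simp
      ring
    rw [e1, hTgt, ← Real.exp_add]
    apply mul_le_mul_of_nonneg_left _ (by norm_num)
    apply Real.exp_le_exp.2
    have e2 : 3.006003 * 0.2862 * c + 5 * ℓ - lam * (6 * κ0) + lam ^ 2 / (2 * θ ^ 2) +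
        lam * (5 * κ0) = 3.006003 * 0.2862 * c + 5 * ℓ - lam * κ0 + lam ^ 2 / (2 * θ ^ 2) := by
      ring
    have e3 : 10 ^ 8 * (lam * κ) ≤ lam * κ0 := by
      calc 10 ^ 8 * (lam * κ) = lam * (10 ^ 8 * κ) := by ring
        _ ≤ lam * κ0 := mul_le_mul_of_nonneg_left hκκ hlam0.le
    rw [hlκ, hG, hcD] at e3
    rw [e2, elam2, hG, hcD]
    linarith
  have hA1 : Real.exp (3 * (1000 * κ + κ) ^ 2 * θ ^ 2) *
      (δ + P * (Real.exp (3 * lam ^ 2 / (2 * θ ^ 2)) * Ph lam (ξ 0 + ξ 1 + ξ 2)) +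
        Q * (Real.exp (lam ^ 2 / (2 * θ ^ 2)) * (Ph lam (ξ 0) + Ph lam (ξ 1) + Ph lam (ξ 2)))) ≤
      9 * (Tgt * Real.exp (-ℓ)) := by
    rw [eE]
    have a1 : P * (Real.exp (3 * lam ^ 2 / (2 * θ ^ 2)) * Ph lam (ξ 0 + ξ 1 + ξ 2)) ≤
        P * (Real.exp (3 * lam ^ 2 / (2 * θ ^ 2)) * (2 * Real.exp (lam * (2 * κ)))) := by
      gcongr
    have a2 : Q * (Real.exp (lam ^ 2 / (2 * θ ^ 2)) * (Ph lam (ξ 0) + Ph lam (ξ 1) +
        Ph lam (ξ 2))) ≤ Q * (Real.exp (lam ^ 2 / (2 * θ ^ 2)) * (2 * Real.exp (lam * (5 * κ0)) +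
        2 * Real.exp (lam * (5 * κ0)) + 2 * Real.exp (lam * (5 * κ0)))) := by
      have b0 := hPh2 0
      have b1 := hPh2 1
      have b2 := hPh2 2
      gcongr
    have a3 : 0 < Real.exp (3.006003 * 0.2862 * c) := Real.exp_pos _
    have a4 := mul_le_mul_of_nonneg_left (add_le_add (add_le_add_right a1 δ) a2) a3.le
    refine a4.trans ?_
    rw [mul_add, mul_add]
    linarith
  calc _ ≤ 7 * (9 * (Tgt * Real.exp (-ℓ))) := mul_le_mul_of_nonneg_left hA1 (by norm_num)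
    _ = Tgt * (63 * Real.exp (-ℓ)) := by ring
    _ ≤ Tgt * 1 := by
        apply mul_le_mul_of_nonneg_left _ hTgt0.le
        rw [Real.exp_neg, ← div_eq_mul_inv, div_le_one (Real.exp_pos _)]
        linarith
    _ = Tgt := mul_one _

/-- Good cells: transfer and Poisson–Jensen. -/
theorem cells6 {n i1 : ℕ} {f f' : ℕ → ℂ} {D κ0 κ c θ : ℝ}
    (hreal : ∀ i, (starRingEnd ℂ) (f i) = f i) (hreal' : ∀ i, (starRingEnd ℂ) (f' i) = f' i)
    (hD : 10 ^ 6 ≤ D) (hf : ∀ i ≤ n, ‖f i‖ ≤ 1) (hf' : ∀ i ≤ n, ‖f' i‖ ≤ 1)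
    (hn : (n : ℝ) + 1 ≤ Real.exp (D / 10 ^ 5)) (hκ : 0 < κ)
    (hκκ : 10 ^ 8 * κ ≤ κ0) (hκ0 : κ0 ≤ 1 / 2000) (hθ : 0 < θ)
    (hκθ : κ ^ 2 * θ ^ 2 = 0.2862 * c / 10 ^ 6)
    (hc : c = 21.01 * D) {s0 : ℂ} (hs0 : s0.re = κ0)
    (hs0i : |s0.im| ≤ 3 * κ0) (hs : Real.exp (-D) ≤ ‖NN n i1 f f' s0‖) :
    ∃ (L : ℕ) (bad : Finset ℕ) (ξ : ℕ → ℝ), (L : ℝ) * κ ≤ 5 * κ0 ∧ 6 * bad.card + 2 ≤ L ∧
      ∀ j < L, j ∉ bad → j * κ ≤ ξ j ∧ ξ j ≤ (j + 1) * κ ∧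
        Real.exp (-c) ≤ ‖expSum (n + 1 - i1)
          (fun k => dif i1 f f' k * cexp (-(k : ℂ) ^ 2 / (2 * θ ^ 2)))
            (((1000 * κ : ℝ) : ℂ) - ξ j * I)‖ := by
  set ℓ := D / 10 ^ 5 with hℓ
  have hℓ10 : 10 ≤ ℓ := by rw [hℓ, le_div_iff₀ (by norm_num)]; linarith
  have hDℓ : D = 10 ^ 5 * ℓ := by rw [hℓ]; ring
  have hcD : c = 2101000 * ℓ := by rw [hc, hDℓ]; ring
  have hκ0p : 0 < κ0 := by linarith
  have hc0 : 0 < c := by rw [hcD]; linarith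
  have hκ0θ : 10 ^ 10 * (0.2862 * c) ≤ κ0 ^ 2 * θ ^ 2 := by
    have h1 : (10 ^ 8 * κ) ^ 2 ≤ κ0 ^ 2 := by gcongr
    have h2 : (10 ^ 8 * κ) ^ 2 * θ ^ 2 ≤ κ0 ^ 2 * θ ^ 2 := by gcongr
    have h3 : (10 ^ 8 * κ) ^ 2 * θ ^ 2 = 10 ^ 16 * (κ ^ 2 * θ ^ 2) := by ring
    rw [h3, hκθ] at h2
    linarith
  have hexpℓ : (1000 : ℝ) ≤ Real.exp ℓ := by
    have h1 : Real.exp 10 ≤ Real.exp ℓ := Real.exp_le_exp.2 hℓ10
    have h2 : Real.exp 10 = Real.exp 1 ^ 10 := by rw [← Real.exp_nat_mul]; norm_num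
    have h3 : (2 : ℝ) ^ 10 ≤ Real.exp 1 ^ 10 :=
      pow_le_pow_left₀ (by norm_num) (by linarith [Real.exp_one_gt_d9]) 10
    rw [h2] at h1
    norm_num at h3
    linarith
  -- bound for the difference sequence
  have ha : ∀ k < n + 1 - i1, ‖dif i1 f f' k‖ ≤ 2 := by
    intro k hk
    have h1 := hf (i1 + k) (by omega)
    have h2 := hf' (i1 + k) (by omega)
    unfold dif
    calc _ ≤ ‖f (i1 + k)‖ + ‖f' (i1 + k)‖ := norm_sub_le _ _
      _ ≤ _ := by linarith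
  have hm : ((n + 1 - i1 : ℕ) : ℝ) ≤ Real.exp ℓ := by
    refine le_trans ?_ hn
    have : n + 1 - i1 ≤ n + 1 := by omega
    exact_mod_cast this
  -- transfer
  obtain ⟨η, hη, hη2⟩ := transfer6 (m := n + 1 - i1) (a := dif i1 f f') (A := 2)
    (κ0 := κ0) (θ := θ) (ε := Real.exp (-D)) (s0 := s0) (by norm_num) ha hκ0p (by
      have h1 : 1 ^ 2 ≤ (κ0 * θ) ^ 2 := by rw [mul_pow]; nlinarith
      exact (pow_le_pow_iff_left₀ (by norm_num) (by positivity) (by norm_num)).1 h1) hs0 hs (by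
      have h1 : Real.exp (-(κ0 ^ 2 * θ ^ 2) / (2 * 10 ^ 7)) ≤ Real.exp (-(D + 2 * ℓ)) := by
        apply Real.exp_le_exp.2
        rw [neg_div, neg_le_neg_iff, le_div_iff₀ (by norm_num)]
        rw [hcD] at hκ0θ
        rw [hDℓ]
        linarith
      calc 100 * 2 * ((n + 1 - i1 : ℕ) : ℝ) * Real.exp (-(κ0 ^ 2 * θ ^ 2) / (2 * 10 ^ 7))
          ≤ 100 * 2 * Real.exp ℓ * Real.exp (-(D + 2 * ℓ)) := by gcongr
        _ ≤ 1000 * Real.exp ℓ * Real.exp (-(D + 2 * ℓ)) := by gcongr; norm_num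
        _ ≤ Real.exp ℓ * Real.exp ℓ * Real.exp (-(D + 2 * ℓ)) := by gcongr
        _ = Real.exp (-D) := by
            rw [← Real.exp_add, ← Real.exp_add]; congr 1; ring)
  -- the windowed sequence
  set a : ℕ → ℂ := fun k => dif i1 f f' k * cexp (-(k : ℂ) ^ 2 / (2 * θ ^ 2)) with haa
  have hgr : ∀ k : ℕ, cexp (-(k : ℂ) ^ 2 / (2 * θ ^ 2)) =
      ((Real.exp (-(k : ℝ) ^ 2 / (2 * θ ^ 2)) : ℝ) : ℂ) := by
    intro k; push_cast; rfl
  have hareal : ∀ k, (starRingEnd ℂ) (a k) = a k := by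
    intro k
    simp only [haa, dif]
    rw [hgr k, map_mul, map_sub, hreal, hreal', Complex.conj_ofReal]
  have ha2 : ∀ k < n + 1 - i1, ‖a k‖ ≤ 2 := by
    intro k hk
    rw [haa]
    simp only [norm_mul]
    have h1 : ‖cexp (-(k : ℂ) ^ 2 / (2 * θ ^ 2))‖ ≤ 1 := by
      rw [hgr k, Complex.norm_real, Real.norm_of_nonneg (Real.exp_pos _).le, Real.exp_le_one_iff]
      apply div_nonpos_of_nonpos_of_nonneg
      · have := sq_nonneg (k : ℝ); linarith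
      · positivity
    calc ‖dif i1 f f' k‖ * ‖cexp (-(k : ℂ) ^ 2 / (2 * θ ^ 2))‖ ≤ 2 * 1 :=
          mul_le_mul (ha k hk) h1 (norm_nonneg _) (by norm_num)
      _ = 2 := mul_one _
  -- the point and the width
  set s1 : ℂ := s0 + η with hs1
  have hre : s1.re = κ0 + η := by rw [hs1, add_re, ofReal_re, hs0]
  have him : s1.im = s0.im := by rw [hs1, add_im, ofReal_im, add_zero]
  have hηabs := abs_le.1 hη
  obtain ⟨w, hw1, hw2, hwlow, hwup⟩ : ∃ w : ℝ,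
      (|s1.im| ≤ s1.re - 1000 * κ → w = s1.re - 1000 * κ) ∧
      (s1.re - 1000 * κ < |s1.im| → w = 5 / 3 * |s1.im|) ∧ κ0 / 2 ≤ w ∧ w ≤ 5 * κ0 := by
    rcases le_or_gt |s1.im| (s1.re - 1000 * κ) with h | h
    · refine ⟨s1.re - 1000 * κ, fun _ => rfl, fun h' => absurd h (not_le.2 h'), ?_, ?_⟩
      · rw [hre]; linarith
      · rw [hre]; linarith
    · refine ⟨5 / 3 * |s1.im|, fun h' => absurd h' (not_le.2 h), fun _ => rfl, ?_, ?_⟩
      · rw [hre] at h; linarith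
      · rw [him]; linarith
  set L : ℕ := ⌊w / κ⌋₊ with hL
  have hw0 : 0 < w := by linarith
  have hL1 : (L : ℝ) * κ ≤ w := by
    have : (L : ℝ) ≤ w / κ := Nat.floor_le (by positivity)
    rwa [le_div_iff₀ hκ] at this
  have hL2 : 0.999 * w ≤ (L : ℝ) * κ := by
    have h1 : w / κ < L + 1 := Nat.lt_floor_add_one _
    rw [div_lt_iff₀ hκ] at h1
    nlinarith
  have hmA : ∀ x : ℝ, ‖expSum (n + 1 - i1) a (((1000 * κ : ℝ) : ℂ) - x * I)‖ ≤ Real.exp (2 * ℓ) := by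
    intro x
    refine (norm_expSum_le ha2 (by simp; positivity)).trans ?_
    calc ((n + 1 - i1 : ℕ) : ℝ) * 2 ≤ Real.exp ℓ * Real.exp ℓ := by gcongr; linarith
      _ = Real.exp (2 * ℓ) := by rw [← Real.exp_add]; congr 1; ring
  obtain ⟨bad, hbad, hgood⟩ := few_bad6 (m := n + 1 - i1) (a := a) (A := Real.exp (2 * ℓ))
    (w0 := 1000 * κ) (ε := Real.exp (-D) / 2) (c := c) (h := κ) (w := w) (s := s1) (L := L)
    hareal (by positivity) (by rw [hre]; linarith) (by rw [hre]; linarith)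
    (by rw [him, hre]; linarith) hw1 hw2 hκ (by linarith) (Real.one_le_exp (by linarith)) hmA
    (by positivity) hη2 hc0 (by
      rw [Real.log_exp, Real.log_div (Real.exp_pos _).ne' (by norm_num), Real.log_exp, hcD, hDℓ]
      have := Real.log_two_lt_d9
      linarith) hL1 hL2
  choose! ξ hξ1 hξ2 hξ3 using hgood
  exact ⟨L, bad, ξ, hL1.trans hwup, hbad,
    fun j hj hjb => ⟨hξ1 j hj hjb, hξ2 j hj hjb, hξ3 j hj hjb⟩⟩

/-- `V(-ξ)` for a real sequence. -/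
theorem VV_real_neg {n i1 : ℕ} {θ κ : ℝ} {f : ℕ → ℂ} (hreal : ∀ i, (starRingEnd ℂ) (f i) = f i)
    (ξ : ℝ) : VV n i1 θ κ f (-ξ) = (starRingEnd ℂ) (VV n i1 θ κ f ξ) := by
  rw [← VV_conj]
  congr 1
  funext i
  exact (hreal i).symm

/-- The pair relation, from the triple relation. -/
theorem pair_relation6 {n i1 : ℕ} (hi : i1 ≤ n) {f f' : ℕ → ℂ} {κ0 κ ω Δ θ : ℝ} (hκ0 : 0 ≤ κ0)
    (hreal : ∀ i, (starRingEnd ℂ) (f i) = f i) (hreal' : ∀ i, (starRingEnd ℂ) (f' i) = f' i)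
    (htr : ∀ g g' : Fin 3 → ℕ → ℂ, (∀ m, Simple6 f f' (g m) (g' m)) → ∀ ζ : Fin 3 → ℝ,
      (∀ m, |ζ m| ≤ 5 * κ0) → |ζ 0 + ζ 1 + ζ 2| ≤ 2 * κ →
      ‖VV n i1 θ ω (g 0) (ζ 0) * VV n i1 θ ω (g 1) (ζ 1) * VV n i1 θ ω (g 2) (ζ 2) -
        VV n i1 θ ω (g' 0) (ζ 0) * VV n i1 θ ω (g' 1) (ζ 1) * VV n i1 θ ω (g' 2) (ζ 2)‖ ≤ Δ)
    (ζ ζ' : ℝ) (h1 : |ζ| ≤ 5 * κ0) (h2 : |ζ'| ≤ 5 * κ0) (h3 : |ζ - ζ'| ≤ 2 * κ) :
    ‖VV n i1 θ ω f ζ * (starRingEnd ℂ) (VV n i1 θ ω f ζ') -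
        VV n i1 θ ω f' ζ * (starRingEnd ℂ) (VV n i1 θ ω f' ζ')‖ ≤ Δ := by
  have := htr ![f, f, fun _ => 1] ![f', f', fun _ => 1] (by
      intro m
      fin_cases m
      · exact Or.inl ⟨rfl, rfl⟩
      · exact Or.inl ⟨rfl, rfl⟩
      · exact Or.inr ⟨rfl, rfl⟩) ![ζ, -ζ', 0] (by
      intro m
      fin_cases m
      · simpa using h1
      · simpa using h2
      · simpa using hκ0) (by simpa [sub_eq_add_neg] using h3)
  simp only [Matrix.cons_val_zero, Matrix.cons_val_one, Matrix.cons_val] at this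
  rw [VV_real_neg hreal, VV_real_neg hreal', ← sub_mul, norm_mul] at this
  have h4 := one_le_norm_VV_one hi θ ω
  refine le_trans ?_ this
  exact le_mul_of_one_le_right (norm_nonneg _) h4

/-- The triple relation for `V a * V b * conj (V (a+b))`. -/
theorem triple_relation6 {n i1 : ℕ} {f f' : ℕ → ℂ} {κ0 κ ω Δ θ : ℝ}
    (hreal : ∀ i, (starRingEnd ℂ) (f i) = f i) (hreal' : ∀ i, (starRingEnd ℂ) (f' i) = f' i)
    (htr : ∀ g g' : Fin 3 → ℕ → ℂ, (∀ m, Simple6 f f' (g m) (g' m)) → ∀ ζ : Fin 3 → ℝ,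
      (∀ m, |ζ m| ≤ 5 * κ0) → |ζ 0 + ζ 1 + ζ 2| ≤ 2 * κ →
      ‖VV n i1 θ ω (g 0) (ζ 0) * VV n i1 θ ω (g 1) (ζ 1) * VV n i1 θ ω (g 2) (ζ 2) -
        VV n i1 θ ω (g' 0) (ζ 0) * VV n i1 θ ω (g' 1) (ζ 1) * VV n i1 θ ω (g' 2) (ζ 2)‖ ≤ Δ)
    (ζ ζ' ζ'' : ℝ) (h1 : |ζ| ≤ 5 * κ0) (h2 : |ζ'| ≤ 5 * κ0) (h2' : |ζ''| ≤ 5 * κ0)
    (h3 : |ζ + ζ' - ζ''| ≤ 2 * κ) :
    ‖VV n i1 θ ω f ζ * VV n i1 θ ω f ζ' * (starRingEnd ℂ) (VV n i1 θ ω f ζ'') -
        VV n i1 θ ω f' ζ * VV n i1 θ ω f' ζ' * (starRingEnd ℂ) (VV n i1 θ ω f' ζ'')‖ ≤ Δ := by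
  have := htr ![f, f, f] ![f', f', f'] (by
      intro m
      fin_cases m
      · exact Or.inl ⟨rfl, rfl⟩
      · exact Or.inl ⟨rfl, rfl⟩
      · exact Or.inl ⟨rfl, rfl⟩) ![ζ, ζ', -ζ''] (by
      intro m
      fin_cases m
      · simpa using h1
      · simpa using h2
      · simpa using h2') (by
      simpa [sub_eq_add_neg] using h3)
  simp only [Matrix.cons_val_zero, Matrix.cons_val_one, Matrix.cons_val] at this
  rwa [VV_real_neg hreal, VV_real_neg hreal'] at this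

/-- The induction step. -/
theorem step6 {n i1 : ℕ} (hi : i1 ≤ n) {f f' : ℕ → ℂ} {D κ0 κ : ℝ}
    (hreal : ∀ i, (starRingEnd ℂ) (f i) = f i) (hreal' : ∀ i, (starRingEnd ℂ) (f' i) = f' i)
    (hD : 10 ^ 6 ≤ D) (hf : ∀ i ≤ n, ‖f i‖ ≤ 1) (hf' : ∀ i ≤ n, ‖f' i‖ ≤ 1)
    (heq : ∀ i < i1, f i = f' i) (hn : (n : ℝ) + 1 ≤ Real.exp (D / 10 ^ 5))
    (hκl : Real.exp (-(D / 10 ^ 5)) ≤ κ)
    (hκκ : 10 ^ 8 * κ ≤ κ0) (hκ0 : κ0 ≤ 1 / 2000) {s0 : ℂ} (hs0 : s0.re = κ0)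
    (hs0i : |s0.im| ≤ 3 * κ0) (hs : Real.exp (-D) ≤ ‖NN n i1 f f' s0‖) :
    ∃ g g' F F' : Fin 3 → ℕ → ℂ, (∀ m, Simple6 f f' (g m) (g' m)) ∧
      (∀ m, Derived κ (6 * κ0) (g m) (g' m) (F m) (F' m)) ∧
      ∃ s : ℂ, s.re = 3000 * κ ∧ |s.im| ≤ 9000 * κ ∧
        Real.exp (-(83 * D)) ≤
          ‖NN n i1 (fun i => F 0 i * F 1 i * F 2 i) (fun i => F' 0 i * F' 1 i * F' 2 i) s‖ := by
  by_contra hcon
  push Not at hcon
  have hκ : 0 < κ := lt_of_lt_of_le (Real.exp_pos _) hκl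
  have hκ0p : 0 < κ0 := by linarith
  obtain ⟨c, hc⟩ : ∃ c : ℝ, c = 21.01 * D := ⟨_, rfl⟩
  have hc0 : 0 < c := by rw [hc]; linarith
  obtain ⟨θ, hθ0, hκθ⟩ : ∃ θ : ℝ, 0 < θ ∧ κ ^ 2 * θ ^ 2 = 0.2862 * c / 10 ^ 6 := by
    refine ⟨Real.sqrt (0.2862 * c / 10 ^ 6) / κ, by positivity, ?_⟩
    rw [div_pow, Real.sq_sqrt (by positivity)]; field_simp
  set ℓ := D / 10 ^ 5 with hℓ
  have hℓ10 : 10 ≤ ℓ := by rw [hℓ, le_div_iff₀ (by norm_num)]; linarith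
  set Δ := Real.exp (-(3 * c + 2 * ℓ)) with hΔ
  have htr : ∀ g g' : Fin 3 → ℕ → ℂ, (∀ m, Simple6 f f' (g m) (g' m)) → ∀ ζ : Fin 3 → ℝ,
      (∀ m, |ζ m| ≤ 5 * κ0) → |ζ 0 + ζ 1 + ζ 2| ≤ 2 * κ →
      ‖VV n i1 θ (1000 * κ) (g 0) (ζ 0) * VV n i1 θ (1000 * κ) (g 1) (ζ 1) *
          VV n i1 θ (1000 * κ) (g 2) (ζ 2) -
        VV n i1 θ (1000 * κ) (g' 0) (ζ 0) * VV n i1 θ (1000 * κ) (g' 1) (ζ 1) *
          VV n i1 θ (1000 * κ) (g' 2) (ζ 2)‖ ≤ Δ := fun g g' hg ζ h1 h2 =>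
    triple6 hi hD hf hf' heq hn hκ hκκ hθ0 hκθ hc
      (fun g g' F F' h1 h2 s h3 h4 => (hcon g g' F F' h1 h2 s h3 h4).le) hg h1 h2
  obtain ⟨L, bad, ξ, hL1, hbad, hξ⟩ := cells6 (i1 := i1) hreal hreal' hD hf hf' hn hκ hκκ hκ0 hθ0
    hκθ hc hs0 hs0i hs
  have hLκ : (L : ℝ) ≤ Real.exp ℓ := by
    have h2 : (L : ℝ) * Real.exp (-ℓ) ≤ 1 := by
      calc (L : ℝ) * Real.exp (-ℓ) ≤ L * κ := by gcongr
        _ ≤ 1 := by linarith
    rw [Real.exp_neg, ← div_eq_mul_inv, div_le_one (Real.exp_pos _)] at h2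
    exact h2
  have hξabs : ∀ j < L, j ∉ bad → |ξ j| ≤ 5 * κ0 := by
    intro j hj hjb
    obtain ⟨h1, h2, -⟩ := hξ j hj hjb
    have h3 : (j : ℝ) + 1 ≤ L := by exact_mod_cast hj
    have h4 : (0 : ℝ) ≤ j * κ := by positivity
    have h5 : ((j : ℝ) + 1) * κ ≤ L * κ := by gcongr
    rw [abs_le]
    constructor <;> linarith
  refine no_phase6 (L := L) (bad := bad) hbad (fun j => VV n i1 θ (1000 * κ) f (ξ j))
    (fun j => VV n i1 θ (1000 * κ) f' (ξ j)) (m := Real.exp (-c)) (D := Δ)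
    (Real.exp_pos _) (Real.exp_le_one_iff.2 (by linarith)) (Real.exp_pos _).le ?_ ?_ ?_ ?_ ?_
  · intro j hj hjb
    rw [VV_sub hi heq]
    exact (hξ j hj hjb).2.2
  · intro j hj hjb
    exact pair_relation6 hi hκ0p.le hreal hreal' htr _ _ (hξabs _ hj hjb) (hξabs _ hj hjb)
      (by simp [hκ.le])
  · intro j hk hjb hkb
    refine pair_relation6 hi hκ0p.le hreal hreal' htr _ _ (hξabs _ hk hkb)
      (hξabs j (by omega) hjb) ?_
    obtain ⟨a1, a2, -⟩ := hξ _ hk hkb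
    obtain ⟨a3, a4, -⟩ := hξ j (by omega) hjb
    push_cast at a1 a2
    rw [abs_le]
    constructor <;> linarith
  · intro j k hjk hj hk hjk'
    obtain ⟨b1, b2, -⟩ := hξ _ hjk hjk'
    obtain ⟨b3, b4, -⟩ := hξ j (by omega) hj
    obtain ⟨b5, b6, -⟩ := hξ k (by omega) hk
    push_cast at b1 b2
    refine triple_relation6 hreal hreal' htr _ _ _ (hξabs j (by omega) hj)
      (hξabs k (by omega) hk) (hξabs _ hjk hjk') ?_
    rw [abs_le]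
    constructor <;> linarith
  · have h22000 : (1000 : ℝ) < Real.exp ℓ := by
      have h1 : Real.exp 10 ≤ Real.exp ℓ := Real.exp_le_exp.2 hℓ10
      have h2 : Real.exp 10 = Real.exp 1 ^ 10 := by rw [← Real.exp_nat_mul]; norm_num
      have h3 : (2 : ℝ) ^ 10 ≤ Real.exp 1 ^ 10 :=
        pow_le_pow_left₀ (by norm_num) (by linarith [Real.exp_one_gt_d9]) 10
      rw [h2] at h1
      norm_num at h3
      linarith
    have e1 : Real.exp (-c) ^ 3 = Δ * (Real.exp ℓ * Real.exp ℓ) := by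
      rw [hΔ, ← Real.exp_nat_mul, ← Real.exp_add, ← Real.exp_add]
      congr 1
      push_cast
      ring
    rw [e1]
    have hΔ0 : 0 < Δ := Real.exp_pos _
    calc 1000 * Δ * L ≤ 1000 * Δ * Real.exp ℓ := by gcongr
      _ = Δ * (1000 * Real.exp ℓ) := by ring
      _ < Δ * (Real.exp ℓ * Real.exp ℓ) := by gcongr

end Vale.Agent.P321.R2.H613
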