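import Vale.Agent.P321.R2.H613.Chain6

/-! # No phases with a density `1/6` of bad cells -/

namespace Vale.Agent.P321.R2.H613

open Complex Finset Vale.Agent.P321.UB

/-- Two families of amplitudes whose products of two (`V a * conj (V b)`, `|a - b| ≤ 1`) and three
(`V a * V b * conj (V (a + b))`) agree up to `D` cannot differ by `m` on more than `5/6` of
`[0, L)`. -/
theorem no_phase6 {L : ℕ} {bad : Finset ℕ} (hbad : 6 * bad.card + 2 ≤ L)
    (V V' : ℕ → ℂ) {m D : ℝ} (hm : 0 < m) (hm1 : m ≤ 1) (hD : 0 ≤ D)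
    (h0 : ∀ a < L, a ∉ bad → m ≤ ‖V a - V' a‖)
    (hsq : ∀ a < L, a ∉ bad → ‖V a * starRingEnd ℂ (V a) - V' a * starRingEnd ℂ (V' a)‖ ≤ D)
    (h1 : ∀ a, a + 1 < L → a ∉ bad → a + 1 ∉ bad →
      ‖V (a + 1) * starRingEnd ℂ (V a) - V' (a + 1) * starRingEnd ℂ (V' a)‖ ≤ D)
    (h2 : ∀ a b, a + b < L → a ∉ bad → b ∉ bad → a + b ∉ bad →
      ‖V a * V b * starRingEnd ℂ (V (a + b)) - V' a * V' b * starRingEnd ℂ (V' (a + b))‖ ≤ D)
    (hsmall : 1000 * D * L < m ^ 3) : False := by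
  classical
  have hne : (range L \ bad).Nonempty := by
    rw [← card_pos]
    have := le_card_sdiff bad (range L)
    rw [card_range] at this
    omega
  have hL1 : (1 : ℝ) ≤ L := by
    have : 1 ≤ L := by omega
    exact_mod_cast this
  have hm3 : 0 < m ^ 3 := by positivity
  have hm2 : 0 < m ^ 2 := by positivity
  have hm32 : m ^ 3 ≤ m ^ 2 := by nlinarith
  have hDL : D ≤ D * L := by nlinarith
  have hD200 : 1000 * D < m ^ 2 := by nlinarith
  -- difference of squares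
  have hsq' : ∀ a < L, a ∉ bad → |‖V a‖ ^ 2 - ‖V' a‖ ^ 2| ≤ D := by
    intro a ha hg
    have := hsq a ha hg
    rw [Complex.mul_conj, Complex.mul_conj, ← Complex.ofReal_sub, Complex.norm_real,
      Complex.normSq_eq_norm_sq, Complex.normSq_eq_norm_sq, Real.norm_eq_abs] at this
    exact this
  -- lower bounds
  have hlow : ∀ a < L, a ∉ bad → m / 4 ≤ ‖V a‖ ∧ m / 4 ≤ ‖V' a‖ := by
    intro a ha hg
    have e1 := h0 a ha hg
    have e2 := abs_le.1 (hsq' a ha hg)
    have e3 := norm_sub_le (V a) (V' a)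
    have n1 := norm_nonneg (V a)
    have n2 := norm_nonneg (V' a)
    constructor
    · by_contra hc
      push Not at hc
      have : 3 * m / 4 ≤ ‖V' a‖ := by linarith
      nlinarith [e2.1, e2.2]
    · by_contra hc
      push Not at hc
      have : 3 * m / 4 ≤ ‖V a‖ := by linarith
      nlinarith [e2.1, e2.2]
  have hne' : ∀ a < L, a ∉ bad → V a ≠ 0 ∧ V' a ≠ 0 := by
    intro a ha hg
    obtain ⟨e1, e2⟩ := hlow a ha hg
    exact ⟨norm_pos_iff.1 (by linarith), norm_pos_iff.1 (by linarith)⟩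
  -- the smallest amplitude
  obtain ⟨a0, ha0, hmin0⟩ := exists_min_image (range L \ bad) (fun a => ‖V a‖) hne
  rw [mem_sdiff, mem_range] at ha0
  obtain ⟨ha0, hga0⟩ := ha0
  set μ : ℝ := ‖V a0‖ with hμ
  have hmin : ∀ a < L, a ∉ bad → μ ≤ ‖V a‖ := fun a ha hg =>
    hmin0 a (mem_sdiff.2 ⟨mem_range.2 ha, hg⟩)
  have hμm : m / 4 ≤ μ := (hlow a0 ha0 hga0).1
  have hμ0 : 0 < μ := by linarith
  -- the phases
  set ph : ℂ → ℂ := fun z => z / ‖z‖ with hph
  have ph_norm : ∀ z : ℂ, z ≠ 0 → ‖ph z‖ = 1 := by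
    intro z hz
    simp only [hph]
    rw [norm_div, Complex.norm_real, norm_norm, div_self (norm_ne_zero_iff.2 hz)]
  have ph_mul : ∀ z w : ℂ, ph (z * w) = ph z * ph w := by
    intro z w
    simp only [hph, norm_mul, Complex.ofReal_mul]
    rw [mul_div_mul_comm]
  have ph_conj : ∀ z : ℂ, ph (starRingEnd ℂ z) = starRingEnd ℂ (ph z) := by
    intro z
    simp only [hph, map_div₀, Complex.conj_ofReal, RCLike.norm_conj]
  have unit_conj : ∀ z : ℂ, ‖z‖ = 1 → z * starRingEnd ℂ z = 1 := by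
    intro z hz
    rw [Complex.mul_conj, Complex.normSq_eq_norm_sq, hz]
    simp
  set u : ℕ → ℂ := fun a => ph (V' a) * starRingEnd ℂ (ph (V a)) with hu
  have u_norm : ∀ a < L, a ∉ bad → ‖u a‖ = 1 := by
    intro a ha hg
    obtain ⟨e1, e2⟩ := hne' a ha hg
    simp only [hu, norm_mul, RCLike.norm_conj, ph_norm _ e1, ph_norm _ e2, mul_one]
  set δ : ℝ := 2 * D / μ ^ 2 + 2 * D / μ ^ 3 with hδ
  have hδ0 : 0 ≤ δ := by positivity
  -- continuity of the phases
  have c1 : ∀ a, a + 1 < L → a ∉ bad → a + 1 ∉ bad → ‖u (a + 1) - u a‖ ≤ δ := by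
    intro a ha hg hg'
    obtain ⟨e1, e2⟩ := hne' a (by omega) hg
    obtain ⟨e3, e4⟩ := hne' (a + 1) ha hg'
    have l1 := hmin a (by omega) hg
    have l3 := hmin (a + 1) ha hg'
    have k1 := norm_phase_sub_le (z := V (a + 1) * starRingEnd ℂ (V a))
      (w := V' (a + 1) * starRingEnd ℂ (V' a))
      (mul_ne_zero e3 ((map_ne_zero _).2 e1)) (mul_ne_zero e4 ((map_ne_zero _).2 e2))
    have k2 : ‖ph (V (a + 1)) * starRingEnd ℂ (ph (V a)) -
        ph (V' (a + 1)) * starRingEnd ℂ (ph (V' a))‖ ≤ 2 * D / (μ * μ) := by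
      have : ph (V (a + 1)) * starRingEnd ℂ (ph (V a)) -
        ph (V' (a + 1)) * starRingEnd ℂ (ph (V' a)) =
          ph (V (a + 1) * starRingEnd ℂ (V a)) - ph (V' (a + 1) * starRingEnd ℂ (V' a)) := by
        rw [ph_mul, ph_mul, ph_conj, ph_conj]
      rw [this]
      refine k1.trans ?_
      rw [norm_mul, RCLike.norm_conj]
      gcongr
      exact h1 a ha hg hg'
    have k3 : u (a + 1) - u a = -(starRingEnd ℂ (ph (V (a + 1))) * ph (V' a)) *
        (ph (V (a + 1)) * starRingEnd ℂ (ph (V a)) -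
          ph (V' (a + 1)) * starRingEnd ℂ (ph (V' a))) := by
      have j1 := unit_conj _ (ph_norm _ e3)
      have j2 := unit_conj _ (ph_norm _ e2)
      simp only [hu]
      linear_combination (ph (V' a) * starRingEnd ℂ (ph (V a))) * j1 -
        (ph (V' (a + 1)) * starRingEnd ℂ (ph (V (a + 1)))) * j2
    rw [k3, norm_mul, norm_neg, norm_mul, RCLike.norm_conj, ph_norm _ e3, ph_norm _ e2, mul_one,
      one_mul]
    refine k2.trans ?_
    rw [hδ, ← pow_two]
    have : 0 ≤ 2 * D / μ ^ 3 := by positivity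
    linarith
  -- additivity of the phases
  have c2 : ∀ a b, a + b < L → a ∉ bad → b ∉ bad → a + b ∉ bad →
      ‖u a * u b - u (a + b)‖ ≤ δ := by
    intro a b hab hga hgb hgab
    obtain ⟨e1, e2⟩ := hne' a (by omega) hga
    obtain ⟨e3, e4⟩ := hne' b (by omega) hgb
    obtain ⟨e5, e6⟩ := hne' (a + b) hab hgab
    have l1 := hmin a (by omega) hga
    have l3 := hmin b (by omega) hgb
    have l5 := hmin (a + b) hab hgab
    have k1 := norm_phase_sub_le (z := V a * V b * starRingEnd ℂ (V (a + b)))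
      (w := V' a * V' b * starRingEnd ℂ (V' (a + b)))
      (mul_ne_zero (mul_ne_zero e1 e3) ((map_ne_zero _).2 e5))
      (mul_ne_zero (mul_ne_zero e2 e4) ((map_ne_zero _).2 e6))
    have k2 : ‖ph (V a) * ph (V b) * starRingEnd ℂ (ph (V (a + b))) -
        ph (V' a) * ph (V' b) * starRingEnd ℂ (ph (V' (a + b)))‖ ≤
          2 * D / (μ * μ * μ) := by
      have : ph (V a) * ph (V b) * starRingEnd ℂ (ph (V (a + b))) -
        ph (V' a) * ph (V' b) * starRingEnd ℂ (ph (V' (a + b))) =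
          ph (V a * V b * starRingEnd ℂ (V (a + b))) -
            ph (V' a * V' b * starRingEnd ℂ (V' (a + b))) := by
        rw [ph_mul, ph_mul, ph_conj, ph_mul, ph_mul, ph_conj]
      rw [this]
      refine k1.trans ?_
      rw [norm_mul, norm_mul, RCLike.norm_conj]
      gcongr
      exact h2 a b hab hga hgb hgab
    have j1 := unit_conj _ (ph_norm _ e1)
    have j3 := unit_conj _ (ph_norm _ e3)
    have j5 := unit_conj _ (ph_norm _ e5)
    have j6 := unit_conj _ (ph_norm _ e6)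
    have k3 : u a * u b - u (a + b) =
        -(starRingEnd ℂ (ph (V a)) * starRingEnd ℂ (ph (V b)) * ph (V' (a + b))) *
        (ph (V a) * ph (V b) * starRingEnd ℂ (ph (V (a + b))) -
          ph (V' a) * ph (V' b) * starRingEnd ℂ (ph (V' (a + b)))) := by
      simp only [hu]
      linear_combination (ph (V' (a + b)) * starRingEnd ℂ (ph (V (a + b)))) * j1 +
        (ph (V' (a + b)) * starRingEnd ℂ (ph (V (a + b))) * (ph (V a) * starRingEnd ℂ (ph (V a)))) * j3
        - (ph (V' a) * starRingEnd ℂ (ph (V a)) * (ph (V' b) * starRingEnd ℂ (ph (V b)))) * j6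
    rw [k3, norm_mul, norm_neg, norm_mul, norm_mul, RCLike.norm_conj, RCLike.norm_conj,
      ph_norm _ e1, ph_norm _ e3, ph_norm _ e6, mul_one, mul_one, one_mul]
    refine k2.trans ?_
    have e7 : μ * μ * μ = μ ^ 3 := by ring
    rw [hδ, e7]
    have : 0 ≤ 2 * D / μ ^ 2 := by positivity
    linarith
  have hclose := chain6 hbad hδ0 u_norm c1 c2 a0 ha0 hga0
  obtain ⟨e1, e2⟩ := hne' a0 ha0 hga0
  have j1 := unit_conj _ (ph_norm _ e1)
  have f1 : ph (V a0) * ‖V a0‖ = V a0 := by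
    simp only [hph]
    rw [div_mul_cancel₀]
    exact_mod_cast (norm_ne_zero_iff.2 e1)
  have f2 : ph (V' a0) * ‖V' a0‖ = V' a0 := by
    simp only [hph]
    rw [div_mul_cancel₀]
    exact_mod_cast (norm_ne_zero_iff.2 e2)
  have f3 : V a0 - V' a0 =
      -(ph (V a0) * (u a0 - 1)) * ‖V a0‖ + ph (V' a0) * ((‖V a0‖ : ℂ) - ‖V' a0‖) := by
    calc V a0 - V' a0 = ph (V a0) * ‖V a0‖ - ph (V' a0) * ‖V' a0‖ := by rw [f1, f2]
      _ = _ := by
        simp only [hu]
        linear_combination (ph (V' a0) * (‖V a0‖ : ℂ)) * j1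
  have f4 : |‖V a0‖ - ‖V' a0‖| ≤ 2 * D / m := by
    have e := hsq' a0 ha0 hga0
    have : ‖V a0‖ ^ 2 - ‖V' a0‖ ^ 2 = (‖V a0‖ - ‖V' a0‖) * (‖V a0‖ + ‖V' a0‖) := by ring
    rw [this, abs_mul, abs_of_nonneg (by positivity : (0 : ℝ) ≤ ‖V a0‖ + ‖V' a0‖)] at e
    rw [le_div_iff₀ hm]
    have hsum : m / 2 ≤ ‖V a0‖ + ‖V' a0‖ := by
      have := (hlow a0 ha0 hga0).2
      linarith
    nlinarith [abs_nonneg (‖V a0‖ - ‖V' a0‖)]
  have f5 : ‖V a0 - V' a0‖ ≤ (5 * L * δ) * μ + 2 * D / m := by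
    rw [f3]
    refine (norm_add_le _ _).trans ?_
    rw [norm_mul, norm_neg, norm_mul, ph_norm _ e1, one_mul, norm_mul, ph_norm _ e2, one_mul,
      ← Complex.ofReal_sub, Complex.norm_real, Complex.norm_real, norm_norm, Real.norm_eq_abs]
    have : ‖u a0 - 1‖ * ‖V a0‖ ≤ (5 * L * δ) * μ :=
      mul_le_mul_of_nonneg_right hclose (norm_nonneg _)
    linarith
  have f6 := h0 a0 ha0 hga0
  have f7 : (5 * L * δ) * μ = 10 * (D * L) * (1 / μ) + 10 * (D * L) * (1 / μ ^ 2) := by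
    rw [hδ]
    field_simp
    ring
  have f8 : 1 / μ ≤ 4 / m := by
    rw [div_le_div_iff₀ hμ0 hm]; linarith
  have f9 : 1 / μ ^ 2 ≤ 16 / m ^ 2 := by
    have : (4 / m) ^ 2 = 16 / m ^ 2 := by ring
    rw [← this, ← one_div_pow]
    exact pow_le_pow_left₀ (by positivity) f8 2
  have hDL0 : 0 ≤ 10 * (D * L) := by positivity
  have f10 : (5 * L * δ) * μ + 2 * D / m ≤ (202 * (D * L)) / m ^ 2 := by
    rw [f7]
    have g1 : 10 * (D * L) * (1 / μ) ≤ 10 * (D * L) * (4 / m) := mul_le_mul_of_nonneg_left f8 hDL0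
    have g2 : 10 * (D * L) * (1 / μ ^ 2) ≤ 10 * (D * L) * (16 / m ^ 2) :=
      mul_le_mul_of_nonneg_left f9 hDL0
    have g3 : 10 * (D * L) * (4 / m) ≤ 10 * (D * L) * (4 / m ^ 2) := by
      apply mul_le_mul_of_nonneg_left _ hDL0
      apply div_le_div_of_nonneg_left (by norm_num) hm2
      nlinarith
    have g4 : 2 * D / m ≤ 2 * (D * L) / m ^ 2 := by
      rw [div_le_div_iff₀ hm hm2]
      have h5 : m ^ 2 ≤ m := by nlinarith
      calc 2 * D * m ^ 2 ≤ 2 * (D * L) * m ^ 2 := by gcongr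
        _ ≤ 2 * (D * L) * m := by gcongr
    have g5 : (202 * (D * L)) / m ^ 2 = 10 * (D * L) * (4 / m ^ 2) + 10 * (D * L) * (16 / m ^ 2) +
        2 * (D * L) / m ^ 2 := by ring
    rw [g5]
    linarith
  have f11 : (202 * (D * L)) / m ^ 2 < m := by
    rw [div_lt_iff₀ hm2]
    have : m * m ^ 2 = m ^ 3 := by ring
    rw [this]
    have : 0 ≤ D * L := by positivity
    linarith
  linarith

end Vale.Agent.P321.R2.H613
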